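import Vale.Agent.P249.Dim.Basic

/-!
Cutting values into layers of geometric width.
-/

namespace Vale.Agent.P249.Dim

open Finset

/-- Layer boundaries. -/
def theta (e : ℝ) (k : ℕ) : ℝ := e * (2 ^ k - 1)

/-- The part of `u` inside the `k`-th layer. -/
noncomputable def layer (e : ℝ) (k : ℕ) (u : ℝ) : ℝ := min u (theta e (k + 1)) - min u (theta e k)

lemma theta_succ (e : ℝ) (k : ℕ) : theta e (k + 1) = theta e k + e * 2 ^ k := by
  rw [theta, theta, pow_succ]; ring

lemma theta_mono {e : ℝ} (he : 0 < e) {j k : ℕ} (h : j ≤ k) : theta e j ≤ theta e k :=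
  mul_le_mul_of_nonneg_left (sub_le_sub_right (pow_le_pow_right₀ one_le_two h) 1) he.le

lemma layer_mono {e : ℝ} (he : 0 < e) (k : ℕ) {u v : ℝ} (h : u ≤ v) :
    layer e k u ≤ layer e k v := by
  have := theta_mono he (Nat.le_succ k)
  simp only [layer, min_def]
  split_ifs <;> linarith

lemma layer_bounds {e : ℝ} (he : 0 < e) (k : ℕ) (u : ℝ) :
    0 ≤ layer e k u ∧ layer e k u ≤ e * 2 ^ k := by
  have := theta_mono he (Nat.le_succ k)
  have := theta_succ e k
  constructor <;> (simp only [layer, min_def]; split_ifs <;> linarith)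

lemma layer_zero {e : ℝ} (he : 0 < e) (k : ℕ) : layer e k 0 = 0 := by
  have h : ∀ j, 0 ≤ theta e j := fun j => by
    have := theta_mono he (Nat.zero_le j)
    simpa [theta] using this
  simp [layer, min_eq_left (h _)]

lemma layer_sum {e : ℝ} (he : 0 < e) {J : ℕ} {u : ℝ} (h0 : 0 ≤ u) (hu : u ≤ theta e J) :
    ∑ k ∈ Finset.range J, layer e k u = u := by
  simp only [layer]
  rw [Finset.sum_range_sub (fun k => min u (theta e k)), min_eq_left hu,
    min_eq_right (le_trans (le_of_eq (by simp [theta])) h0)]
  simp [theta]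

lemma layer_upper {e p : ℝ} (he : 0 < e) (hp : 1 ≤ p) {J : ℕ} {u v : ℝ} (hu0 : 0 ≤ u)
    (hv0 : 0 ≤ v) (hu : u ≤ theta e J) (hv : v ≤ theta e J) :
    ∑ k ∈ Finset.range J, |layer e k u - layer e k v| ^ p ≤ |u - v| ^ p := by
  refine (sum_rpow_le hp _ _ fun k _ => abs_nonneg _).trans
    (Real.rpow_le_rpow (Finset.sum_nonneg fun k _ => abs_nonneg _) (le_of_eq ?_) (by linarith))
  wlog huv : u ≤ v generalizing u v
  · simp only [abs_sub_comm _ (layer e _ v)]
    rw [abs_sub_comm]
    exact this hv0 hu0 hv hu (le_of_not_ge huv)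
  rw [Finset.sum_congr rfl fun k _ => abs_of_nonpos (sub_nonpos.2 (layer_mono he k huv)),
    abs_of_nonpos (sub_nonpos.2 huv)]
  rw [Finset.sum_neg_distrib, Finset.sum_sub_distrib, layer_sum he hu0 hu, layer_sum he hv0 hv]

lemma layer_lower {e : ℝ} (he : 0 < e) {J : ℕ} {u v : ℝ} (hu0 : 0 ≤ u) (huv : u < v)
    (hv : v ≤ theta e J) : ∃ k < J, v - u ≤ 4 * |layer e k u - layer e k v| := by
  have hex : ∃ k, v ≤ theta e (k + 1) := ⟨J, hv.trans (theta_mono he (Nat.le_succ J))⟩
  set K := Nat.find hex with hK
  have hK1 : v ≤ theta e (K + 1) := Nat.find_spec hex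
  have hK2 : theta e K < v := by
    rcases Nat.eq_zero_or_pos K with h | h
    · rw [h]; simp [theta]; linarith
    · obtain ⟨j, hj⟩ := Nat.exists_eq_add_of_le' h
      have := Nat.find_min hex (m := j) (by omega)
      rw [hj]; exact not_le.1 this
  have hKJ : K < J := by
    by_contra hcon
    push Not at hcon
    linarith [hv.trans (theta_mono he hcon)]
  have hlv : layer e K v = v - theta e K := by
    rw [layer, min_eq_left hK1, min_eq_right hK2.le]
  have hlu : layer e K u = u - min u (theta e K) := by
    rw [layer, min_eq_left (huv.le.trans hK1)]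
  suffices h : ∃ k < J, v - u ≤ 4 * |layer e k v - layer e k u| by
    obtain ⟨k, hk, h⟩ := h
    exact ⟨k, hk, by rwa [abs_sub_comm]⟩
  rcases le_or_gt (theta e K) u with h | h
  · refine ⟨K, hKJ, ?_⟩
    rw [min_eq_right h] at hlu
    rw [hlv, hlu]
    linarith [le_abs_self (v - theta e K - (u - theta e K))]
  · rw [min_eq_left h.le] at hlu
    obtain ⟨j, hj⟩ := Nat.exists_eq_add_of_le' (show 1 ≤ K by
      by_contra h0
      have : K = 0 := by omega
      rw [this] at h; simp [theta] at h; linarith)
    have hjv : layer e j v = theta e (j + 1) - theta e j := by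
      rw [layer, min_eq_right (by rw [← hj]; exact hK2.le),
        min_eq_right ((theta_mono he (show j ≤ j + 1 by omega)).trans (by rw [← hj]; exact hK2.le))]
    have hju : layer e j u = u - min u (theta e j) := by
      rw [layer, min_eq_left (by rw [← hj]; exact h.le)]
    have a1 := le_abs_self (layer e K v - layer e K u)
    have a2 := le_abs_self (layer e j v - layer e j u)
    rcases le_or_gt (theta e j) u with h' | h'
    · rw [min_eq_right h'] at hju
      rw [hlv, hlu] at a1
      rw [hjv, hju, ← hj] at a2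
      rcases le_total (v - theta e K) (theta e K - u) with hc | hc
      · refine ⟨j, by omega, ?_⟩
        rw [hjv, hju, ← hj]
        linarith
      · refine ⟨K, hKJ, ?_⟩
        rw [hlv, hlu]
        linarith
    · rw [min_eq_left h'.le] at hju
      refine ⟨j, by omega, ?_⟩
      rw [hjv, hju] at a2 ⊢
      rw [hj] at hK1
      have e1 := theta_succ e j
      have e2 := theta_succ e (j + 1)
      have e3 : theta e j = e * 2 ^ j - e := by rw [theta]; ring
      rw [pow_succ] at e2
      linarith

lemma layer_load {e p : ℝ} (he : 0 < e) (hp : 1 ≤ p) {J : ℕ} {u : ℝ} (hu : u = 0 ∨ e ≤ u)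
    (huJ : u ≤ theta e J) :
    ∑ k ∈ (Finset.range J).filter (fun k => layer e k u ≠ 0), (e * 2 ^ k) ^ p ≤
      (3:ℝ) ^ p * u ^ p := by
  rcases hu with rfl | hu
  · simp [layer_zero he, Real.zero_rpow (by linarith : p ≠ 0)]
  have hex : ∃ k, u ≤ theta e (k + 1) := ⟨J, huJ.trans (theta_mono he (Nat.le_succ J))⟩
  set K := Nat.find hex with hK
  have hsub : (Finset.range J).filter (fun k => layer e k u ≠ 0) ⊆ Finset.range (K + 1) := by
    intro k hk
    rw [Finset.mem_filter] at hk
    rw [Finset.mem_range]
    by_contra hcon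
    push Not at hcon
    have h1 : u ≤ theta e k := (Nat.find_spec hex).trans (theta_mono he hcon)
    exact hk.2 (by rw [layer, min_eq_left (h1.trans (theta_mono he (Nat.le_succ k))),
      min_eq_left h1, sub_self])
  have hpos : ∀ k, 0 ≤ e * 2 ^ k := fun k => by positivity
  refine (Finset.sum_le_sum_of_subset_of_nonneg hsub fun k _ _ =>
    Real.rpow_nonneg (hpos k) p).trans ?_
  refine (sum_rpow_le hp _ _ fun k _ => hpos k).trans ?_
  rw [← Real.mul_rpow (by norm_num) (by linarith)]
  refine Real.rpow_le_rpow (Finset.sum_nonneg fun k _ => hpos k) ?_ (by linarith)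
  have hsum : ∑ k ∈ Finset.range (K + 1), e * 2 ^ k = theta e (K + 1) := by
    rw [show theta e (K + 1) = theta e (K + 1) - theta e 0 by simp [theta],
      ← Finset.sum_range_sub (theta e)]
    exact Finset.sum_congr rfl fun k _ => by rw [theta_succ]; ring
  rw [hsum]
  rcases Nat.eq_zero_or_pos K with h | h
  · rw [h]; simp [theta]; linarith
  · obtain ⟨j, hj⟩ := Nat.exists_eq_add_of_le' h
    have h2 := Nat.find_min hex (m := j) (by omega)
    push Not at h2
    rw [hj, theta, pow_succ]
    rw [theta] at h2
    linarith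

/-- The part of a real number of the given sign. -/
noncomputable def sgnPart (b : Bool) (t : ℝ) : ℝ := if b then max t 0 else max (-t) 0

lemma sgnPart_nonneg (b : Bool) (t : ℝ) : 0 ≤ sgnPart b t := by cases b <;> simp [sgnPart]

lemma exists_layers {ι κ : Type*} [Fintype ι] [Fintype κ] {p : ℝ} (hp : 1 ≤ p)
    (y : ι → κ → ℝ) {a : ℝ} (hy : ∀ x, pw p (y x) ≤ a) :
    ∃ (J : ℕ) (φ : ι → κ × Bool × Fin J → ℝ) (b : κ × Bool × Fin J → ℝ),
      (∀ c, 0 < b c) ∧ (∀ x c, 0 ≤ φ x c) ∧ (∀ x c, φ x c ≤ b c) ∧
      (∀ x, ∑ c ∈ univ.filter (fun c => φ x c ≠ 0), b c ^ p ≤ (3:ℝ) ^ p * a) ∧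
      ∀ x x', pw p (φ x - φ x') ≤ pw p (y x - y x') ∧
        pw p (y x - y x') ≤ (8:ℝ) ^ p * pw p (φ x - φ x') := by
  classical
  have hp0 : 0 < p := by linarith
  set E := insert (1:ℝ)
    ((univ.filter fun q : ι × κ => y q.1 q.2 ≠ 0).image fun q => |y q.1 q.2|) with hE
  set e := E.min' (Finset.insert_nonempty _ _) with he
  have he0 : 0 < e := by
    refine (Finset.lt_min'_iff E _).2 fun t ht => ?_
    rcases Finset.mem_insert.1 ht with rfl | ht
    · exact one_pos
    · obtain ⟨q, hq, rfl⟩ := Finset.mem_image.1 ht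
      exact abs_pos.2 (Finset.mem_filter.1 hq).2
  have hele : ∀ x c, y x c ≠ 0 → e ≤ |y x c| := fun x c h =>
    Finset.min'_le _ _ (Finset.mem_insert_of_mem (Finset.mem_image.2 ⟨(x, c), by simp [h], rfl⟩))
  obtain ⟨J, hJ⟩ := pow_unbounded_of_one_lt ((∑ q : ι × κ, |y q.1 q.2|) / e + 1) one_lt_two
  have hmax : ∀ x c (s : Bool), sgnPart s (y x c) ≤ theta e J := by
    intro x c s
    have h1 : |y x c| ≤ ∑ q : ι × κ, |y q.1 q.2| :=
      Finset.single_le_sum (f := fun q : ι × κ => |y q.1 q.2|) (fun q _ => abs_nonneg _)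
        (Finset.mem_univ (x, c))
    have h2 : (∑ q : ι × κ, |y q.1 q.2|) / e < 2 ^ J - 1 := by linarith
    rw [div_lt_iff₀ he0] at h2
    have h3 : sgnPart s (y x c) ≤ |y x c| := by
      cases s <;> simp [sgnPart, neg_le_abs, le_abs_self]
    rw [theta]
    linarith
  refine ⟨J, fun x c => layer e c.2.2 (sgnPart c.2.1 (y x c.1)), fun c => e * 2 ^ (c.2.2 : ℕ),
    fun c => by positivity, fun x c => (layer_bounds he0 _ _).1, fun x c => (layer_bounds he0 _ _).2,
    fun x => ?_, fun x x' => ?_⟩
  · calc _ = ∑ c, ∑ s : Bool, ∑ k ∈ (Finset.range J).filter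
          (fun k => layer e k (sgnPart s (y x c)) ≠ 0), (e * 2 ^ k) ^ p := by
          rw [Finset.sum_filter, Fintype.sum_prod_type]
          refine Finset.sum_congr rfl fun c _ => ?_
          rw [Fintype.sum_prod_type]
          refine Finset.sum_congr rfl fun s _ => ?_
          rw [Finset.sum_filter, ← Fin.sum_univ_eq_sum_range]
      _ ≤ ∑ c, ∑ s : Bool, (3:ℝ) ^ p * sgnPart s (y x c) ^ p := by
          refine Finset.sum_le_sum fun c _ => Finset.sum_le_sum fun s _ => layer_load he0 hp ?_ (hmax x c s)
          by_cases h : y x c = 0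
          · left; cases s <;> simp [sgnPart, h]
          · rcases eq_or_lt_of_le (sgnPart_nonneg s (y x c)) with h' | h'
            · exact Or.inl h'.symm
            · right
              refine le_trans (hele x c h) (le_of_eq ?_)
              cases s
              · simp only [sgnPart, Bool.false_eq_true, if_false] at h' ⊢
                have : 0 < -y x c := by
                  rcases lt_max_iff.1 h' with h'' | h''
                  · exact h''
                  · exact absurd h'' (lt_irrefl _)
                rw [max_eq_left this.le, abs_of_nonpos (by linarith)]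
              · simp only [sgnPart, if_true] at h' ⊢
                have : 0 < y x c := by
                  rcases lt_max_iff.1 h' with h'' | h''
                  · exact h''
                  · exact absurd h'' (lt_irrefl _)
                rw [max_eq_left this.le, abs_of_pos this]
      _ ≤ (3:ℝ) ^ p * a := by
          refine le_trans ?_ (mul_le_mul_of_nonneg_left (hy x) (by positivity))
          rw [pw, Finset.mul_sum]
          refine Finset.sum_le_sum fun c _ => ?_
          rw [Fintype.sum_bool, ← mul_add]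
          refine mul_le_mul_of_nonneg_left ?_ (by positivity)
          rcases le_total 0 (y x c) with h | h
          · simp [sgnPart, h, Real.zero_rpow hp0.ne', abs_of_nonneg h]
          · simp [sgnPart, h, Real.zero_rpow hp0.ne', abs_of_nonpos h]
  · have hsplit : pw p ((fun c : κ × Bool × Fin J => layer e c.2.2 (sgnPart c.2.1 (y x c.1))) -
        fun c => layer e c.2.2 (sgnPart c.2.1 (y x' c.1))) = ∑ c, ∑ s : Bool,
        ∑ k ∈ Finset.range J, |layer e k (sgnPart s (y x c)) - layer e k (sgnPart s (y x' c))| ^ p := by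
      rw [pw, Fintype.sum_prod_type]
      refine Finset.sum_congr rfl fun c _ => ?_
      rw [Fintype.sum_prod_type]
      refine Finset.sum_congr rfl fun s _ => ?_
      rw [← Fin.sum_univ_eq_sum_range]
      rfl
    rw [hsplit, pw, Finset.mul_sum]
    have hsum : ∀ s t : ℝ, |sgnPart true s - sgnPart true t| + |sgnPart false s - sgnPart false t| =
        |s - t| := by
      intro s t
      simp only [sgnPart, if_true, Bool.false_eq_true, if_false]
      rcases le_total 0 s with h1 | h1 <;> rcases le_total 0 t with h2 | h2 <;>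
        simp [max_eq_left, max_eq_right, h1, h2]
      · rw [abs_of_nonneg h1, abs_of_nonpos h2, abs_of_nonneg (by linarith)]; ring
      · rw [abs_of_nonpos h1, abs_of_nonneg h2, abs_of_nonpos (by linarith)]; ring
      · rw [abs_sub_comm]; congr 1; ring
    constructor <;> refine Finset.sum_le_sum fun c _ => ?_
    · rw [Fintype.sum_bool]
      refine (add_le_add (layer_upper he0 hp (sgnPart_nonneg _ _) (sgnPart_nonneg _ _) (hmax x c _)
        (hmax x' c _)) (layer_upper he0 hp (sgnPart_nonneg _ _) (sgnPart_nonneg _ _) (hmax x c _)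
        (hmax x' c _))).trans ?_
      refine (rpow_add_super hp (abs_nonneg _) (abs_nonneg _)).trans ?_
      rw [hsum]
      exact le_rfl
    · obtain ⟨s, hs⟩ : ∃ s : Bool, |y x c - y x' c| ≤
          2 * |sgnPart s (y x c) - sgnPart s (y x' c)| := by
        have := hsum (y x c) (y x' c)
        rcases le_total |sgnPart true (y x c) - sgnPart true (y x' c)|
            |sgnPart false (y x c) - sgnPart false (y x' c)| with h | h
        · exact ⟨false, by linarith⟩
        · exact ⟨true, by linarith⟩
      simp only [Pi.sub_apply]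
      rcases eq_or_ne (y x c - y x' c) 0 with h0 | h0
      · rw [h0, abs_zero, Real.zero_rpow hp0.ne']
        exact mul_nonneg (by positivity) (Finset.sum_nonneg fun _ _ =>
          Finset.sum_nonneg fun _ _ => Real.rpow_nonneg (abs_nonneg _) _)
      obtain ⟨k, hk, hk4⟩ : ∃ k < J, |y x c - y x' c| ≤
          8 * |layer e k (sgnPart s (y x c)) - layer e k (sgnPart s (y x' c))| := by
        rcases lt_trichotomy (sgnPart s (y x c)) (sgnPart s (y x' c)) with h | h | h
        · obtain ⟨k, hk, hk4⟩ := layer_lower he0 (sgnPart_nonneg _ _) h (hmax x' c s)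
          refine ⟨k, hk, ?_⟩
          rw [abs_of_nonpos (by linarith : sgnPart s (y x c) - sgnPart s (y x' c) ≤ 0)] at hs
          linarith
        · rw [h, sub_self, abs_zero, mul_zero] at hs
          exact absurd (abs_nonpos_iff.1 hs) h0
        · obtain ⟨k, hk, hk4⟩ := layer_lower he0 (sgnPart_nonneg _ _) h (hmax x c s)
          refine ⟨k, hk, ?_⟩
          rw [abs_sub_comm] at hk4
          rw [abs_of_nonneg (by linarith : 0 ≤ sgnPart s (y x c) - sgnPart s (y x' c))] at hs
          linarith
      refine (Real.rpow_le_rpow (abs_nonneg _) hk4 hp0.le).trans ?_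
      rw [Real.mul_rpow (by norm_num) (abs_nonneg _)]
      refine mul_le_mul_of_nonneg_left ?_ (by positivity)
      calc _ ≤ ∑ k ∈ Finset.range J,
            |layer e k (sgnPart s (y x c)) - layer e k (sgnPart s (y x' c))| ^ p :=
            Finset.single_le_sum (f := fun k =>
              |layer e k (sgnPart s (y x c)) - layer e k (sgnPart s (y x' c))| ^ p)
              (fun k _ => Real.rpow_nonneg (abs_nonneg _) _) (Finset.mem_range.2 hk)
        _ ≤ _ := Finset.single_le_sum (f := fun s : Bool => ∑ k ∈ Finset.range J,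
              |layer e k (sgnPart s (y x c)) - layer e k (sgnPart s (y x' c))| ^ p)
              (fun _ _ => Finset.sum_nonneg fun _ _ => Real.rpow_nonneg (abs_nonneg _) _)
              (Finset.mem_univ s)

end Vale.Agent.P249.Dim
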