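import Vale.Agent.P249.Dim.Trunc
import Mathlib.Data.Real.Archimedean
import Mathlib.Algebra.Order.Floor.Semiring

/-!
Averaging over balls of random radius kills short distances up to the growth of ball sizes.
-/

namespace Vale.Agent.P249.Dim

open Finset

variable {ι κ μ : Type*} [Fintype ι] [Fintype κ] [Fintype μ] {p : ℝ}

/-- The logarithm of the number of points in a ball. -/
noncomputable def vol (p : ℝ) (x : ι → κ → ℝ) (i : ι) (r : ℝ) : ℝ := Real.log (cnt p x i r)

lemma vol_nonneg (x : ι → κ → ℝ) (i : ι) (r : ℝ) : 0 ≤ vol p x i r := Real.log_natCast_nonneg _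

lemma vol_mono (hp : 0 < p) (x : ι → κ → ℝ) (i : ι) {r s : ℝ} (hr : 0 ≤ r) (h : r ≤ s) :
    vol p x i r ≤ vol p x i s :=
  Real.log_le_log (by exact_mod_cast cnt_pos hp x i hr) (by exact_mod_cast cnt_mono x i h)

/-- The uniform weight on a ball. -/
noncomputable def ballW (p : ℝ) (x : ι → κ → ℝ) (i : ι) (τ : ℝ) (z : ι) : ℝ :=
  if nm p (x i - x z) ≤ τ then ((cnt p x i τ : ℝ))⁻¹ else 0

lemma ballW_nonneg (x : ι → κ → ℝ) (i : ι) (τ : ℝ) (z : ι) : 0 ≤ ballW p x i τ z := by
  rw [ballW]; split_ifs <;> positivity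

lemma ballW_sum (hp : 0 < p) (x : ι → κ → ℝ) (i : ι) {τ : ℝ} (hτ : 0 ≤ τ) :
    ∑ z, ballW p x i τ z = 1 := by
  simp only [ballW, ← Finset.sum_filter, Finset.sum_const, nsmul_eq_mul]
  exact mul_inv_cancel₀ (Nat.cast_ne_zero.2 (by have := cnt_pos hp x i hτ; rw [cnt] at this; omega))

lemma ballW_diff (hp : 1 ≤ p) (x : ι → κ → ℝ) (i j : ι) {τ d : ℝ}
    (hd : nm p (x i - x j) ≤ d) (hτ : d ≤ τ) :
    ∑ z, |ballW p x i τ z - ballW p x j τ z| ≤
      2 * (vol p x i (τ + d) - vol p x i (τ - d)) := by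
  classical
  have hp0 : 0 < p := by linarith
  have hd0 : 0 ≤ d := (nm_nonneg _).trans hd
  set O := univ.filter (fun z => nm p (x i - x z) ≤ τ - d) with hO
  set G : ℝ := (cnt p x i (τ + d) : ℝ) with hG
  have hG1 : (1:ℝ) ≤ G := by rw [hG]; exact_mod_cast cnt_pos hp0 x i (by linarith)
  have hmin : ∀ z ∈ O, G⁻¹ ≤ min (ballW p x i τ z) (ballW p x j τ z) := by
    intro z hz
    rw [hO, Finset.mem_filter] at hz
    have a1 := nm_sub_le hp (x j) (x i) (x z)
    rw [nm_sub_comm (x j) (x i)] at a1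
    rw [ballW, ballW, if_pos (by linarith), if_pos (by linarith)]
    refine le_min ?_ ?_
    · refine inv_anti₀ (by exact_mod_cast cnt_pos hp0 x i (by linarith)) ?_
      rw [hG]; exact_mod_cast cnt_mono x i (by linarith)
    · refine inv_anti₀ (by exact_mod_cast cnt_pos hp0 x j (by linarith)) ?_
      rw [hG]
      refine Nat.cast_le.2 (Finset.card_le_card fun w hw => ?_)
      simp only [Finset.mem_filter] at hw ⊢
      have := nm_sub_le hp (x i) (x j) (x w)
      exact ⟨hw.1, by linarith [hw.2]⟩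
  have hsum : (O.card : ℝ) * G⁻¹ ≤ ∑ z, min (ballW p x i τ z) (ballW p x j τ z) := by
    refine le_trans ?_ (Finset.sum_le_sum_of_subset_of_nonneg (Finset.subset_univ O) fun z _ _ =>
      le_min (ballW_nonneg x i τ z) (ballW_nonneg x j τ z))
    calc (O.card : ℝ) * G⁻¹ = ∑ _z ∈ O, G⁻¹ := by simp
      _ ≤ _ := Finset.sum_le_sum hmin
  have habs : ∀ a b : ℝ, |a - b| = a + b - 2 * min a b := by
    intro a b
    rcases le_total a b with h | h
    · rw [min_eq_left h, abs_of_nonpos (by linarith)]; ring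
    · rw [min_eq_right h, abs_of_nonneg (by linarith)]; ring
  simp only [habs, Finset.sum_sub_distrib, Finset.sum_add_distrib, ← Finset.mul_sum]
  rw [ballW_sum hp0 x i (hd0.trans hτ), ballW_sum hp0 x j (hd0.trans hτ)]
  have hOc : (1:ℝ) ≤ O.card := by exact_mod_cast cnt_pos hp0 x i (by linarith : 0 ≤ τ - d)
  have hlog := Real.log_le_sub_one_of_pos (show 0 < (O.card : ℝ) * G⁻¹ by positivity)
  rw [Real.log_mul (by linarith) (inv_ne_zero (by linarith)), Real.log_inv] at hlog
  have hv1 : vol p x i (τ - d) = Real.log (O.card : ℝ) := rfl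
  have hv2 : vol p x i (τ + d) = Real.log G := rfl
  rw [hv1, hv2]
  linarith

lemma exists_smooth (hp : 1 ≤ p) (x : ι → κ → ℝ) (P : ι → μ → ℝ) {C0 R0 S0 r : ℝ} (hC0 : 0 ≤ C0)
    (hR0 : 0 < R0) (hr : R0 ≤ r)
    (hP : ∀ i j, nm p (P i - P j) ≤ C0 * (nm p (x i - x j) + R0)) (hS : ∀ i, nm p (P i) ≤ S0) :
    ∃ Q : ι → μ → ℝ, (∀ i, nm p (Q i - P i) ≤ 4 * C0 * r) ∧ (∀ i, nm p (Q i) ≤ S0) ∧
      ∀ i j, 4 * nm p (x i - x j) ≤ r → nm p (Q i - Q j) ≤
        32 * C0 * nm p (x i - x j) * (vol p x i (8 * r) - vol p x i (r / 8)) := by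
  classical
  have hp0 : 0 < p := by linarith
  have hr0 : 0 < r := hR0.trans_le hr
  obtain ⟨N, hN0, hNd⟩ : ∃ N : ℕ, (0:ℝ) < N ∧
      ∀ i j, 0 < nm p (x i - x j) → r ≤ (N:ℝ) * nm p (x i - x j) := by
    obtain ⟨N, hN⟩ := exists_nat_gt (∑ q : ι × ι, r / nm p (x q.1 - x q.2))
    have h0 : 0 ≤ ∑ q : ι × ι, r / nm p (x q.1 - x q.2) :=
      Finset.sum_nonneg fun q _ => div_nonneg hr0.le (nm_nonneg _)
    refine ⟨N, lt_of_le_of_lt h0 hN, fun i j h => ?_⟩
    have h1 := Finset.single_le_sum (f := fun q : ι × ι => r / nm p (x q.1 - x q.2))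
      (fun q _ => div_nonneg hr0.le (nm_nonneg _)) (Finset.mem_univ (i, j))
    have h2 : r / nm p (x i - x j) ≤ (N:ℝ) := le_trans h1 hN.le
    exact (div_le_iff₀ h).1 h2
  set τ : ℕ → ℝ := fun t => r + r * t / N with hτ
  have hτ0 : ∀ t, r ≤ τ t := fun t => by
    simp only [hτ]; linarith [show 0 ≤ r * t / N by positivity]
  have hτ1 : ∀ t ∈ Finset.range N, τ t ≤ 2 * r := fun t ht => by
    have : (t:ℝ) ≤ N := by exact_mod_cast (Finset.mem_range.1 ht).le
    have : r * t / N ≤ r := by rw [div_le_iff₀ hN0]; exact mul_le_mul_of_nonneg_left this hr0.le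
    simp only [hτ]; linarith
  set Q : ι → μ → ℝ := fun i =>
    (N:ℝ)⁻¹ • ∑ t ∈ Finset.range N, ∑ z, ballW p x i (τ t) z • P z with hQ
  have hNs : ∀ (c : μ → ℝ), (N:ℝ)⁻¹ • ∑ _t ∈ Finset.range N, c = c := by
    intro c
    rw [Finset.sum_const, Finset.card_range, ← Nat.cast_smul_eq_nsmul ℝ, smul_smul,
      inv_mul_cancel₀ hN0.ne', one_smul]
  have hWc : ∀ i t (c : μ → ℝ), ∑ z, ballW p x i (τ t) z • c = c := fun i t c => by
    rw [← Finset.sum_smul, ballW_sum hp0 x i (hr0.le.trans (hτ0 t)), one_smul]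
  have havg : ∀ (f : ℕ → μ → ℝ) (b : ℝ), (∀ t ∈ Finset.range N, nm p (f t) ≤ b) →
      nm p ((N:ℝ)⁻¹ • ∑ t ∈ Finset.range N, f t) ≤ b := by
    intro f b hb
    rw [nm_smul hp0, abs_of_nonneg (by positivity)]
    calc (N:ℝ)⁻¹ * nm p (∑ t ∈ Finset.range N, f t) ≤ (N:ℝ)⁻¹ * ∑ t ∈ Finset.range N, b :=
          mul_le_mul_of_nonneg_left ((nm_sum_le hp _ _).trans (Finset.sum_le_sum hb)) (by positivity)
      _ = b := by simp; field_simp
  refine ⟨Q, fun i => ?_, fun i => ?_, fun i j hij => ?_⟩
  · have e : Q i - P i =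
        (N:ℝ)⁻¹ • ∑ t ∈ Finset.range N, ∑ z, ballW p x i (τ t) z • (P z - P i) := by
      simp only [smul_sub, Finset.sum_sub_distrib, hWc, hNs, hQ]
    rw [e]
    refine havg _ _ fun t ht => (nm_sum_le hp _ _).trans ?_
    calc ∑ z, nm p (ballW p x i (τ t) z • (P z - P i))
        ≤ ∑ z, ballW p x i (τ t) z * (4 * C0 * r) := by
          refine Finset.sum_le_sum fun z _ => ?_
          rw [nm_smul hp0, abs_of_nonneg (ballW_nonneg x i _ z)]
          by_cases h : nm p (x i - x z) ≤ τ t
          · refine mul_le_mul_of_nonneg_left ((hP z i).trans ?_) (ballW_nonneg x i _ z)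
            rw [nm_sub_comm]
            have := hτ1 t ht
            nlinarith
          · rw [ballW, if_neg h, zero_mul, zero_mul]
      _ = 4 * C0 * r := by
          rw [← Finset.sum_mul, ballW_sum hp0 x i (hr0.le.trans (hτ0 t)), one_mul]
  · refine havg _ _ fun t ht => (nm_sum_le hp _ _).trans ?_
    calc ∑ z, nm p (ballW p x i (τ t) z • P z) ≤ ∑ z, ballW p x i (τ t) z * S0 := by
          refine Finset.sum_le_sum fun z _ => ?_
          rw [nm_smul hp0, abs_of_nonneg (ballW_nonneg x i _ z)]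
          exact mul_le_mul_of_nonneg_left (hS z) (ballW_nonneg x i _ z)
      _ = S0 := by rw [← Finset.sum_mul, ballW_sum hp0 x i (hr0.le.trans (hτ0 t)), one_mul]
  · set d := nm p (x i - x j) with hd
    have hd0 : 0 ≤ d := nm_nonneg _
    have hV : 0 ≤ vol p x i (8 * r) - vol p x i (r / 8) :=
      sub_nonneg.2 (vol_mono hp0 x i (by positivity) (by linarith))
    set s := ⌈d * N / r⌉₊ with hs
    have hs1 : d ≤ r * s / N := by
      rw [le_div_iff₀ hN0, mul_comm r, ← div_le_iff₀ hr0]; exact Nat.le_ceil _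
    have hs2 : r * s / N ≤ 2 * d := by
      rcases eq_or_lt_of_le hd0 with h | h
      · rw [hs, ← h]; simp
      · have h1 := hNd i j h
        have h2 : 1 ≤ d * N / r := by rw [le_div_iff₀ hr0]; linarith
        have h3 := Nat.ceil_lt_add_one (show 0 ≤ d * N / r by positivity)
        rw [← hs] at h3
        calc r * s / N ≤ r * (2 * (d * N / r)) / N :=
              div_le_div_of_nonneg_right (mul_le_mul_of_nonneg_left (by linarith) hr0.le) hN0.le
          _ = 2 * d := by field_simp
    set H : ℕ → ℝ := fun q => vol p x i (r + r * q / N - r * s / N) with hH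
    have hrad : ∀ q : ℕ, r / 8 ≤ r + r * q / N - r * s / N := fun q => by
      linarith [show 0 ≤ r * (q:ℝ) / N by positivity]
    have hHmono : ∀ a b : ℕ, a ≤ b → H a ≤ H b := fun a b h => by
      refine vol_mono hp0 x i (by linarith [hrad a]) ?_
      have h1 : (a:ℝ) ≤ b := by exact_mod_cast h
      have h2 : r * a / N ≤ r * b / N :=
        div_le_div_of_nonneg_right (mul_le_mul_of_nonneg_left h1 hr0.le) hN0.le
      linarith
    have hshift : ∀ q, ∑ t ∈ Finset.range N, (H (t + q) - H t) ≤ q * (H (N + q) - H 0) := by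
      intro q
      induction q with
      | zero => simp
      | succ q ih =>
        have e : ∑ t ∈ Finset.range N, (H (t + (q + 1)) - H t) =
            ∑ t ∈ Finset.range N, (H (t + q) - H t) + (H (N + q) - H q) := by
          rw [← Nat.add_zero N, ← zero_add q]
          have := Finset.sum_range_sub (fun t => H (t + q)) N
          simp only [zero_add, Nat.add_zero] at this ⊢
          rw [← this, ← Finset.sum_add_distrib]
          refine Finset.sum_congr rfl fun t _ => ?_
          rw [show t + (q + 1) = t + 1 + q by omega]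
          ring
        rw [e]
        have a1 := hHmono (N + q) (N + (q + 1)) (by omega)
        have a2 := hHmono 0 q (Nat.zero_le q)
        have a3 : H (N + q) - H 0 ≤ H (N + (q + 1)) - H 0 := by linarith
        have a4 := mul_le_mul_of_nonneg_left a3 (Nat.cast_nonneg q : (0:ℝ) ≤ q)
        push_cast
        linarith
    have e : Q i - Q j = (N:ℝ)⁻¹ • ∑ t ∈ Finset.range N,
        ∑ z, (ballW p x i (τ t) z - ballW p x j (τ t) z) • (P z - P i) := by
      simp only [sub_smul, smul_sub, Finset.sum_sub_distrib, hWc, hNs, hQ]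
      abel
    rw [e, nm_smul hp0, abs_of_nonneg (by positivity)]
    have hterm : ∀ t ∈ Finset.range N,
        nm p (∑ z, (ballW p x i (τ t) z - ballW p x j (τ t) z) • (P z - P i)) ≤
          8 * C0 * r * (H (t + 2 * s) - H t) := by
      intro t ht
      have hdτ : d ≤ τ t := by linarith [hτ0 t]
      calc _ ≤ ∑ z, nm p ((ballW p x i (τ t) z - ballW p x j (τ t) z) • (P z - P i)) :=
            nm_sum_le hp _ _
        _ ≤ ∑ z, |ballW p x i (τ t) z - ballW p x j (τ t) z| * (4 * C0 * r) := by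
            refine Finset.sum_le_sum fun z _ => ?_
            rw [nm_smul hp0]
            by_cases h : nm p (x i - x z) ≤ τ t ∨ nm p (x j - x z) ≤ τ t
            · refine mul_le_mul_of_nonneg_left ((hP z i).trans ?_) (abs_nonneg _)
              rw [nm_sub_comm]
              have := hτ1 t ht
              have := nm_sub_le hp (x i) (x j) (x z)
              rcases h with h | h <;> nlinarith
            · push Not at h
              rw [ballW, ballW, if_neg (by linarith [h.1]), if_neg (by linarith [h.2])]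
              simp
        _ ≤ 2 * (vol p x i (τ t + d) - vol p x i (τ t - d)) * (4 * C0 * r) := by
            rw [← Finset.sum_mul]
            exact mul_le_mul_of_nonneg_right (ballW_diff hp x i j le_rfl hdτ) (by positivity)
        _ ≤ 8 * C0 * r * (H (t + 2 * s) - H t) := by
            have e1 : r + r * ((t + 2 * s : ℕ) : ℝ) / N - r * s / N = τ t + r * s / N := by
              simp only [hτ]; push_cast; field_simp; ring
            have e2 : r + r * (t : ℝ) / N - r * s / N = τ t - r * s / N := by simp only [hτ]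
            have a1 : vol p x i (τ t + d) ≤ H (t + 2 * s) := by
              simp only [hH]; rw [e1]
              exact vol_mono hp0 x i (by linarith) (by linarith)
            have a2 : H t ≤ vol p x i (τ t - d) := by
              simp only [hH]; rw [e2]
              exact vol_mono hp0 x i (by linarith [hτ0 t]) (by linarith)
            have : 0 ≤ C0 * r := by positivity
            nlinarith
    have htop : H (N + 2 * s) - H 0 ≤ vol p x i (8 * r) - vol p x i (r / 8) := by
      have a1 : H (N + 2 * s) ≤ vol p x i (8 * r) := by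
        refine vol_mono hp0 x i (by linarith [hrad (N + 2 * s)]) ?_
        have : r * ((N + 2 * s : ℕ) : ℝ) / N = r + 2 * (r * s / N) := by push_cast; field_simp
        linarith
      have a2 : vol p x i (r / 8) ≤ H 0 := vol_mono hp0 x i (by positivity) (hrad 0)
      linarith
    have h0H : 0 ≤ H (N + 2 * s) - H 0 := sub_nonneg.2 (hHmono _ _ (Nat.zero_le _))
    calc (N:ℝ)⁻¹ * nm p (∑ t ∈ Finset.range N,
            ∑ z, (ballW p x i (τ t) z - ballW p x j (τ t) z) • (P z - P i))
        ≤ (N:ℝ)⁻¹ * (8 * C0 * r * ((2 * s : ℕ) * (H (N + 2 * s) - H 0))) := by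
          refine mul_le_mul_of_nonneg_left ?_ (by positivity)
          refine ((nm_sum_le hp _ _).trans (Finset.sum_le_sum hterm)).trans ?_
          rw [← Finset.mul_sum]
          exact mul_le_mul_of_nonneg_left (hshift (2 * s)) (by positivity)
      _ = 16 * C0 * (r * s / N) * (H (N + 2 * s) - H 0) := by push_cast; field_simp; ring
      _ ≤ 16 * C0 * (2 * d) * (vol p x i (8 * r) - vol p x i (r / 8)) :=
          mul_le_mul (mul_le_mul_of_nonneg_left hs2 (by positivity)) htop h0H (by positivity)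
      _ = _ := by ring

end Vale.Agent.P249.Dim
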