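import Vale.Agent.P249.Dim.Hash
import Vale.Agent.P249.Dim.Layer
import Vale.Agent.P249.Dim.Smooth

/-!
One band of distances.
-/

namespace Vale.Agent.P249.Dim

open Finset

/-- The load of the layers. -/
noncomputable def loadC (p : ℝ) (K L : ℕ) (H : ℝ) : ℝ :=
  (2:ℝ) ^ (2 * K) * (9 * H * (64 ^ L) ^ 3) ^ p

/-- The coarse Lipschitz constant. -/
noncomputable def coarseC (K : ℕ) : ℝ := 4 * (4 * (2:ℝ) ^ (2 * K) + 3)

/-- The ratio between the distances of a band and the small scales. -/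
noncomputable def bandC (K : ℕ) : ℝ := 2048 * coarseC K

/-- The bound on the norms in one band. -/
noncomputable def supC (K : ℕ) : ℝ := 4 * (9 * (2:ℝ) ^ (2 * K) * bandC K) ^ 2

lemma one_le_coarseC (K : ℕ) : 1 ≤ coarseC K := by
  have : (0:ℝ) ≤ (2:ℝ) ^ (2 * K) := by positivity
  rw [coarseC]; linarith

lemma one_le_bandC (K : ℕ) : 1 ≤ bandC K := by
  have := one_le_coarseC K
  rw [bandC]; linarith

lemma le_rpow_self {p t : ℝ} (hp : 1 ≤ p) (ht : 1 ≤ t) : t ≤ t ^ p := by
  simpa using Real.rpow_le_rpow_of_exponent_le ht hp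

lemma exists_band {ι κ : Type*} [Fintype ι] [Fintype κ] {p : ℝ} (hp : 1 ≤ p) (x : ι → κ → ℝ)
    {L K k : ℕ} (hL : 1 ≤ L) (hk1 : 1 ≤ k) (hk : k ≤ K * L) (hn : Fintype.card ι < 2 ^ k)
    {R0 : ℝ} (hR0 : 0 < R0) :
    ∃ F : ι → Fin (hashDim k (loadC p K L (bandC K))) → ℝ,
      (∀ i, nm p (F i) ≤ supC K * (R0 * (64 ^ L) ^ 6)) ∧
      (∀ i j, bandC K * (R0 * 64 ^ L) < nm p (x i - x j) →
        nm p (x i - x j) ≤ bandC K * (R0 * (64 ^ L) ^ 2) →
        nm p (x i - x j) / 256 ≤ nm p (F i - F j)) ∧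
      ∀ i j, nm p (F i - F j) ≤
        32 * coarseC K * nm p (x i - x j) / L * ∑ l ∈ Finset.range L,
          (vol p x i (8 * (R0 * 64 ^ (l + 1))) - vol p x i (R0 * 64 ^ (l + 1) / 8)) +
        if R0 < 4 * nm p (x i - x j) then 37 * coarseC K * nm p (x i - x j) else 0 := by
  classical
  have hp0 : 0 < p := by linarith
  set H := bandC K with hH
  set A : ℝ := 64 ^ L with hA
  set M : ℝ := (2:ℝ) ^ (2 * K) with hM
  set C0 := coarseC K with hC0
  have hH1 : 1 ≤ H := one_le_bandC K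
  have hC01 : 1 ≤ C0 := one_le_coarseC K
  have hA1 : 1 ≤ A := one_le_pow₀ (by norm_num)
  have hM1 : 1 ≤ M := one_le_pow₀ (by norm_num)
  have hA3 : 1 ≤ A ^ 3 := one_le_pow₀ hA1
  set RT := H * (R0 * A ^ 2) with hRT
  have hRT0 : 0 < RT := by positivity
  obtain ⟨T, hT1, hT2, hT3⟩ := exists_trunc hp x hRT0 hL hk hn
  set y := fun i => R0⁻¹ • T i with hy
  have hR0i : |R0⁻¹| ^ p = (R0 ^ p)⁻¹ := by
    rw [abs_of_pos (inv_pos.2 hR0), Real.inv_rpow hR0.le]
  have hRp : 0 < R0 ^ p := Real.rpow_pos_of_pos hR0 p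
  have hyle : ∀ i, pw p (y i) ≤ M * (3 * (H * A ^ 3)) ^ p := by
    intro i
    rw [hy, pw_smul, hR0i, inv_mul_le_iff₀ hRp]
    refine (hT3 i).trans (le_of_eq ?_)
    rw [hRT, show 3 * (H * (R0 * A ^ 2) * 64 ^ L) = R0 * (3 * (H * A ^ 3)) by rw [hA]; ring,
      Real.mul_rpow hR0.le (by positivity)]
    ring
  obtain ⟨J, φ, b, hb, hφ0, hφb, hload, hφ⟩ := exists_layers hp y hyle
  have haeq : (3:ℝ) ^ p * (M * (3 * (H * A ^ 3)) ^ p) = loadC p K L H := by
    rw [loadC, ← hA, ← hM, mul_left_comm, ← Real.mul_rpow (by norm_num) (by positivity)]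
    ring_nf
  have ha1 : 1 ≤ loadC p K L H := by
    rw [loadC, ← hA, ← hM]
    exact one_le_mul_of_one_le_of_one_le hM1 (Real.one_le_rpow (by nlinarith) hp0.le)
  obtain ⟨Φ, hΦ, hΦs⟩ := exists_hash hp φ b hb hφ0 hφb ha1
    (fun i => (hload i).trans_eq haeq) hk1 hn
  set P := fun i => R0 • Φ i with hP
  have hPe : ∀ i j, pw p (P i - P j) = R0 ^ p * pw p (Φ i - Φ j) := fun i j => by
    rw [hP]; dsimp only; rw [← smul_sub, pw_smul, abs_of_pos hR0]
  have hye : ∀ i j, pw p (y i - y j) = (R0 ^ p)⁻¹ * pw p (T i - T j) := fun i j => by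
    rw [hy]; dsimp only; rw [← smul_sub, pw_smul, hR0i]
  have hcoarse : ∀ i j, nm p (P i - P j) ≤ C0 * (nm p (x i - x j) + R0) := by
    intro i j
    set d := nm p (x i - x j) with hd
    have hd0 : 0 ≤ d := nm_nonneg _
    refine nm_le hp0 (by positivity) ?_
    rw [hPe]
    have h1 : pw p (Φ i - Φ j) ≤ (C0 * (d / R0 + 1)) ^ p := by
      have h2 : pw p (y i - y j) ≤ 2 * M * (4 * (d / R0)) ^ p := by
        rw [hye, inv_mul_le_iff₀ hRp]
        refine (hT1 i j).trans (le_of_eq ?_)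
        rw [← hd, ← mul_div_assoc 4 d R0, Real.div_rpow (by positivity) hR0.le, ← hM]
        field_simp
      have h3 : (4 * (d / R0)) ^ p ≤ (4 * (d / R0 + 1)) ^ p :=
        Real.rpow_le_rpow (by positivity) (by linarith) hp0.le
      have h4 : 1 ≤ (4 * (d / R0 + 1)) ^ p :=
        Real.one_le_rpow (by linarith [show 0 ≤ d / R0 by positivity]) hp0.le
      calc pw p (Φ i - Φ j) ≤ 2 * pw p (φ i - φ j) + 3 := (hΦ i j).1
        _ ≤ 4 * M * (4 * (d / R0 + 1)) ^ p + 3 * (4 * (d / R0 + 1)) ^ p := by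
            have := (hφ i j).1
            have := mul_le_mul_of_nonneg_left h3 (by positivity : (0:ℝ) ≤ 4 * M)
            linarith
        _ = (4 * M + 3) * (4 * (d / R0 + 1)) ^ p := by ring
        _ ≤ (4 * M + 3) ^ p * (4 * (d / R0 + 1)) ^ p :=
            mul_le_mul_of_nonneg_right (le_rpow_self hp (by linarith)) (by positivity)
        _ = _ := by
            rw [← Real.mul_rpow (by positivity) (by positivity), hC0, coarseC, ← hM]
            ring_nf
    refine (mul_le_mul_of_nonneg_left h1 hRp.le).trans (le_of_eq ?_)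
    rw [← Real.mul_rpow hR0.le (by positivity)]
    congr 1
    field_simp
  set S0 := supC K * (R0 * A ^ 6) with hS0
  have hsup : ∀ i, nm p (P i) ≤ S0 := by
    intro i
    refine nm_le hp0 (by rw [hS0, supC]; positivity) ?_
    rw [hP]; dsimp only; rw [pw_smul, abs_of_pos hR0]
    have h1 : 4 * loadC p K L H ^ 2 ≤ (4 * (9 * M * H * A ^ 3) ^ 2) ^ p := by
      have h2 : loadC p K L H ≤ (9 * M * H * A ^ 3) ^ p := by
        rw [loadC, ← hA, ← hM, show 9 * M * H * A ^ 3 = M * (9 * H * A ^ 3) by ring,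
          Real.mul_rpow (x := M) (y := 9 * H * A ^ 3) (by positivity) (by positivity)]
        exact mul_le_mul_of_nonneg_right (le_rpow_self hp hM1)
          (Real.rpow_nonneg (by positivity : (0:ℝ) ≤ 9 * H * A ^ 3) p)
      rw [Real.mul_rpow (by norm_num) (by positivity), ← Real.rpow_natCast_mul (by positivity),
        mul_comm ((2:ℕ):ℝ), Real.rpow_mul_natCast (by positivity)]
      exact mul_le_mul (le_rpow_self hp (by norm_num)) (pow_le_pow_left₀ (by linarith) h2 2)
        (by positivity) (by positivity)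
    refine (mul_le_mul_of_nonneg_left ((hΦs i).trans h1) hRp.le).trans (le_of_eq ?_)
    rw [← Real.mul_rpow hR0.le (by positivity)]
    congr 1
    rw [hS0, supC, ← hH, ← hM]
    ring
  have hlev : ∀ l : ℕ, R0 ≤ R0 * 64 ^ (l + 1) := fun l =>
    le_mul_of_one_le_right hR0.le (one_le_pow₀ (by norm_num))
  choose Q hQ1 hQ2 hQ3 using fun l => exists_smooth hp x P (by linarith : 0 ≤ C0) hR0 (hlev l)
    hcoarse hsup
  have hL0 : (0:ℝ) < L := by exact_mod_cast hL
  set F := fun i => (L:ℝ)⁻¹ • ∑ l ∈ Finset.range L, Q l i with hF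
  have havg : ∀ (f : ℕ → Fin (hashDim k (loadC p K L H)) → ℝ) (g : ℕ → ℝ),
      (∀ l ∈ Finset.range L, nm p (f l) ≤ g l) →
      nm p ((L:ℝ)⁻¹ • ∑ l ∈ Finset.range L, f l) ≤ (L:ℝ)⁻¹ * ∑ l ∈ Finset.range L, g l := by
    intro f g hfg
    rw [nm_smul hp0, abs_of_nonneg (by positivity)]
    exact mul_le_mul_of_nonneg_left ((nm_sum_le hp _ _).trans (Finset.sum_le_sum hfg)) (by positivity)
  have hFP : ∀ i, nm p (F i - P i) ≤ 4 * C0 * (R0 * A) := by
    intro i
    have e : F i - P i = (L:ℝ)⁻¹ • ∑ l ∈ Finset.range L, (Q l i - P i) := by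
      rw [Finset.sum_sub_distrib, smul_sub, Finset.sum_const, Finset.card_range,
        ← Nat.cast_smul_eq_nsmul ℝ, smul_smul, inv_mul_cancel₀ hL0.ne', one_smul]
    rw [e]
    refine (havg _ (fun _ => 4 * C0 * (R0 * A)) fun l hl => (hQ1 l i).trans ?_).trans
      (le_of_eq ?_)
    · refine mul_le_mul_of_nonneg_left (mul_le_mul_of_nonneg_left ?_ hR0.le) (by positivity)
      rw [hA]
      exact pow_le_pow_right₀ (by norm_num) (Finset.mem_range.1 hl)
    · simp; field_simp
  refine ⟨F, fun i => ?_, fun i j hd1 hd2 => ?_, fun i j => ?_⟩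
  · refine (havg _ (fun _ => S0) fun l _ => hQ2 l i).trans (le_of_eq ?_)
    simp; field_simp
  · set d := nm p (x i - x j) with hd
    have hd0 : 0 ≤ d := nm_nonneg _
    have hT : d ^ p / 2 ≤ pw p (T i - T j) := hT2 i j (by rw [hRT]; linarith)
    have hu : 128 ≤ d / R0 := by
      rw [le_div_iff₀ hR0]
      have : (2048:ℝ) * R0 ≤ H * (R0 * A) := by
        rw [hH, bandC, ← hC0]
        nlinarith [mul_le_mul hC01 hA1 zero_le_one (by linarith)]
      linarith
    have hv1 : 1 ≤ d / R0 / 128 := by rw [le_div_iff₀ (by norm_num)]; linarith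
    have hPl : (d / 128) ^ p ≤ pw p (P i - P j) := by
      rw [hPe, show d / 128 = R0 * (d / R0 / 128) by field_simp,
        Real.mul_rpow hR0.le (by linarith)]
      refine mul_le_mul_of_nonneg_left ?_ hRp.le
      have e1 : (d / R0) ^ p = (8:ℝ) ^ p * (16:ℝ) ^ p * (d / R0 / 128) ^ p := by
        rw [← Real.mul_rpow (by norm_num) (by norm_num),
          ← Real.mul_rpow (by norm_num) (by linarith)]
        congr 1; ring
      have e2 : (d / R0) ^ p / 2 ≤ (8:ℝ) ^ p * pw p (φ i - φ j) := by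
        refine le_trans ?_ (hφ i j).2
        rw [hye, Real.div_rpow hd0 hR0.le, div_div, le_inv_mul_iff₀ hRp]
        refine le_trans (le_of_eq ?_) hT
        field_simp
      have e3 : (16:ℝ) * (d / R0 / 128) ^ p ≤ 2 * pw p (φ i - φ j) := by
        have h16 : (16:ℝ) ≤ (16:ℝ) ^ p := le_rpow_self hp (by norm_num)
        rw [e1] at e2
        have h8 : 0 < (8:ℝ) ^ p := by positivity
        have h9 : (16:ℝ) ^ p * (d / R0 / 128) ^ p ≤ 2 * pw p (φ i - φ j) :=
          le_of_mul_le_mul_left (by linarith) h8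
        exact (mul_le_mul_of_nonneg_right h16 (by positivity)).trans h9
      have e4 : 1 ≤ (d / R0 / 128) ^ p := Real.one_le_rpow hv1 hp0.le
      linarith [(hΦ i j).2]
    have hPn := le_nm hp0 (by positivity) hPl
    have a1 := hFP i
    have a2 := hFP j
    have a3 := nm_sub_le hp (P i) (F i) (P j)
    have a4 := nm_sub_le hp (F i) (F j) (P j)
    rw [nm_sub_comm (P i) (F i)] at a3
    have a5 : 4 * C0 * (R0 * A) * 512 ≤ d := by
      rw [hH, bandC, ← hC0] at hd1
      linarith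
    linarith
  · set d := nm p (x i - x j) with hd
    have hd0 : 0 ≤ d := nm_nonneg _
    have e : F i - F j = (L:ℝ)⁻¹ • ∑ l ∈ Finset.range L, (Q l i - Q l j) := by
      rw [Finset.sum_sub_distrib, smul_sub]
    rw [e]
    set V := fun l : ℕ => vol p x i (8 * (R0 * 64 ^ (l + 1))) - vol p x i (R0 * 64 ^ (l + 1) / 8)
      with hV
    set E := if R0 < 4 * d then 37 * C0 * d else 0 with hE
    have hV0 : ∀ l, 0 ≤ V l := fun l => by
      have : 0 < R0 * 64 ^ (l + 1) := by positivity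
      exact sub_nonneg.2 (vol_mono hp0 x i (by linarith) (by linarith))
    have hE0 : 0 ≤ E := by rw [hE]; split_ifs <;> positivity
    refine (havg _ (fun l => 32 * C0 * d * V l + E) fun l _ => ?_).trans (le_of_eq ?_)
    · by_cases h : 4 * d ≤ R0 * 64 ^ (l + 1)
      · have := hQ3 l i j h
        simp only [hV]
        linarith
      · push Not at h
        have hR : R0 < 4 * d := lt_of_le_of_lt (hlev l) h
        rw [hE, if_pos hR]
        have a1 := hQ1 l i
        have a2 := hQ1 l j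
        have a3 := nm_sub_le hp (Q l i) (P i) (Q l j)
        have a4 := nm_sub_le hp (P i) (P j) (Q l j)
        have a5 := hcoarse i j
        rw [nm_sub_comm (P j) (Q l j)] at a4
        have a6 : 0 ≤ 32 * C0 * d * V l := by have := hV0 l; positivity
        rw [← hd] at a5
        have a7 : 4 * C0 * (R0 * 64 ^ (l + 1)) ≤ 4 * C0 * (4 * d) :=
          mul_le_mul_of_nonneg_left h.le (by positivity)
        have a8 : C0 * R0 ≤ C0 * (4 * d) := mul_le_mul_of_nonneg_left hR.le (by linarith)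
        linarith
    · simp only [Finset.sum_add_distrib, ← Finset.mul_sum, Finset.sum_const, Finset.card_range,
        nsmul_eq_mul]
      field_simp

end Vale.Agent.P249.Dim
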