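import Mathlib.Analysis.MeanInequalities
import Mathlib.Analysis.MeanInequalitiesPow
import Mathlib.Analysis.Complex.Exponential
import Mathlib.Analysis.SpecialFunctions.Log.Basic
import Mathlib.Algebra.BigOperators.Ring.Finset

/-!
Finite-dimensional `ℓ_p` norms and an averaging lemma for sums of independent samples.
-/

namespace Vale.Agent.P249.Dim

open Finset

variable {ι : Type*} [Fintype ι] {p : ℝ}

/-- The sum of `p`-th powers of the absolute values. -/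
noncomputable def pw (p : ℝ) (v : ι → ℝ) : ℝ := ∑ i, |v i| ^ p

/-- The `ℓ_p` norm. -/
noncomputable def nm (p : ℝ) (v : ι → ℝ) : ℝ := pw p v ^ (1 / p)

lemma pw_nonneg (v : ι → ℝ) : 0 ≤ pw p v :=
  Finset.sum_nonneg fun _ _ => Real.rpow_nonneg (abs_nonneg _) _

lemma nm_nonneg (v : ι → ℝ) : 0 ≤ nm p v := Real.rpow_nonneg (pw_nonneg v) _

lemma nm_rpow (hp : 0 < p) (v : ι → ℝ) : nm p v ^ p = pw p v := by
  rw [nm, ← Real.rpow_mul (pw_nonneg v), one_div, inv_mul_cancel₀ hp.ne', Real.rpow_one]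

lemma nm_le (hp : 0 < p) {v : ι → ℝ} {b : ℝ} (hb : 0 ≤ b) (h : pw p v ≤ b ^ p) : nm p v ≤ b :=
  (Real.rpow_le_rpow_iff (nm_nonneg v) hb hp).1 (by rwa [nm_rpow hp])

lemma le_nm (hp : 0 < p) {v : ι → ℝ} {b : ℝ} (hb : 0 ≤ b) (h : b ^ p ≤ pw p v) : b ≤ nm p v :=
  (Real.rpow_le_rpow_iff hb (nm_nonneg v) hp).1 (by rwa [nm_rpow hp])

lemma nm_zero (hp : 0 < p) : nm p (fun _ : ι => (0:ℝ)) = 0 := by
  simp [nm, pw, Real.zero_rpow hp.ne', Real.zero_rpow (inv_ne_zero hp.ne')]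

lemma nm_add_le (hp : 1 ≤ p) (v w : ι → ℝ) : nm p (v + w) ≤ nm p v + nm p w := by
  simpa [nm, pw] using Real.Lp_add_le Finset.univ v w hp

lemma nm_neg (v : ι → ℝ) : nm p (-v) = nm p v := by simp [nm, pw]

lemma nm_sub_comm (v w : ι → ℝ) : nm p (v - w) = nm p (w - v) := by
  rw [← nm_neg, neg_sub]

lemma nm_sub_le (hp : 1 ≤ p) (u v w : ι → ℝ) : nm p (u - w) ≤ nm p (u - v) + nm p (v - w) := by
  simpa using nm_add_le hp (u - v) (v - w)

lemma pw_smul (c : ℝ) (v : ι → ℝ) : pw p (c • v) = |c| ^ p * pw p v := by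
  simp [pw, Finset.mul_sum, abs_mul, Real.mul_rpow (abs_nonneg _) (abs_nonneg _)]

lemma nm_smul (hp : 0 < p) (c : ℝ) (v : ι → ℝ) : nm p (c • v) = |c| * nm p v := by
  rw [nm, pw_smul, Real.mul_rpow (Real.rpow_nonneg (abs_nonneg _) _) (pw_nonneg v),
    ← Real.rpow_mul (abs_nonneg _), one_div, mul_inv_cancel₀ hp.ne', Real.rpow_one, nm, one_div]

lemma nm_sum_le (hp : 1 ≤ p) {α : Type*} (s : Finset α) (v : α → ι → ℝ) :
    nm p (∑ a ∈ s, v a) ≤ ∑ a ∈ s, nm p (v a) := by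
  classical
  induction s using Finset.induction with
  | empty =>
    simp [nm, pw, Real.zero_rpow (by linarith : p ≠ 0),
      Real.zero_rpow (inv_ne_zero (by linarith : p ≠ 0))]
  | insert a s ha ih =>
    rw [Finset.sum_insert ha, Finset.sum_insert ha]
    exact (nm_add_le hp _ _).trans (add_le_add le_rfl ih)

lemma rpow_add_super (hp : 1 ≤ p) {a b : ℝ} (ha : 0 ≤ a) (hb : 0 ≤ b) :
    a ^ p + b ^ p ≤ (a + b) ^ p := by
  have := NNReal.add_rpow_le_rpow_add (p := p) ⟨a, ha⟩ ⟨b, hb⟩ hp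
  exact_mod_cast this

lemma sum_rpow_le (hp : 1 ≤ p) {α : Type*} (s : Finset α) (f : α → ℝ) (hf : ∀ a ∈ s, 0 ≤ f a) :
    ∑ a ∈ s, f a ^ p ≤ (∑ a ∈ s, f a) ^ p := by
  classical
  induction s using Finset.induction with
  | empty => simp [Real.zero_rpow (by linarith : p ≠ 0)]
  | insert a s ha ih =>
    rw [Finset.sum_insert ha, Finset.sum_insert ha]
    have h1 := ih fun b hb => hf b (Finset.mem_insert_of_mem hb)
    have h2 := rpow_add_super hp (hf a (Finset.mem_insert_self a s))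
      (Finset.sum_nonneg fun b hb => hf b (Finset.mem_insert_of_mem hb))
    linarith

lemma exp_le_one_add_two_mul {z : ℝ} (h0 : 0 ≤ z) (h1 : z ≤ 1) : Real.exp z ≤ 1 + 2 * z := by
  have := Real.abs_exp_sub_one_le (x := z) (by rw [abs_of_nonneg h0]; exact h1)
  rw [abs_of_nonneg h0] at this
  have := le_abs_self (Real.exp z - 1)
  linarith

lemma exp_neg_le_one_sub_half {z : ℝ} (h0 : 0 ≤ z) (h1 : z ≤ 1) :
    Real.exp (-z) ≤ 1 - z / 2 := by
  have h2 := Real.add_one_le_exp z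
  have h3 : Real.exp z * Real.exp (-z) = 1 := by rw [← Real.exp_add]; simp
  have h4 := Real.exp_pos (-z)
  nlinarith [mul_le_mul_of_nonneg_right h2 h4.le, mul_nonneg h0 (sub_nonneg.2 h1)]

/-- Some sequence of `m` samples has all sums close to their means. -/
lemma exists_good_sample {Ω P : Type*} [Fintype Ω] [Fintype P] (w : Ω → ℝ) (hw0 : ∀ ω, 0 ≤ w ω)
    (hw1 : ∑ ω, w ω = 1) (Z : P → Ω → ℝ) (hZ0 : ∀ q ω, 0 ≤ Z q ω) (hZ1 : ∀ q ω, Z q ω ≤ 1)
    (u l : P → ℝ) (hu : ∀ q, ∑ ω, w ω * Z q ω ≤ u q) (hl : ∀ q, l q ≤ ∑ ω, w ω * Z q ω)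
    (m : ℕ) (t : ℝ) (ht : 2 * (Fintype.card P : ℝ) * Real.exp (-t) < 1) :
    ∃ ω : Fin m → Ω, ∀ q, ∑ i, Z q (ω i) ≤ 2 * m * u q + t ∧
      m * l q / 2 - t ≤ ∑ i, Z q (ω i) := by
  classical
  set W : (Fin m → Ω) → ℝ := fun ω => ∏ i, w (ω i) with hW
  have hW0 : ∀ ω, 0 ≤ W ω := fun ω => Finset.prod_nonneg fun i _ => hw0 _
  have hW1 : ∑ ω, W ω = 1 := by rw [hW, ← Fintype.sum_pow, hw1, one_pow]
  set F : (Fin m → Ω) → ℝ := fun ω => ∑ q,
    (Real.exp (∑ i, Z q (ω i) - (2 * m * u q + t)) +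
      Real.exp ((m * l q / 2 - t) - ∑ i, Z q (ω i))) with hF
  have key : ∀ (g : Ω → ℝ) (c : ℝ), ∑ ω : Fin m → Ω, W ω * Real.exp (∑ i, g (ω i) + c) =
      (∑ ω, w ω * Real.exp (g ω)) ^ m * Real.exp c := by
    intro g c
    rw [Fintype.sum_pow, Finset.sum_mul]
    refine Finset.sum_congr rfl fun ω _ => ?_
    rw [Real.exp_add, Real.exp_sum, Finset.prod_mul_distrib, mul_assoc]
  have h1 : ∀ q, ∑ ω, W ω * Real.exp (∑ i, Z q (ω i) - (2 * m * u q + t)) ≤ Real.exp (-t) := by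
    intro q
    simp only [sub_eq_add_neg]
    rw [key (Z q)]
    have h2 : ∑ ω, w ω * Real.exp (Z q ω) ≤ Real.exp (2 * u q) := by
      calc ∑ ω, w ω * Real.exp (Z q ω) ≤ ∑ ω, (w ω + 2 * (w ω * Z q ω)) :=
            Finset.sum_le_sum fun ω _ => by
              have := mul_le_mul_of_nonneg_left (exp_le_one_add_two_mul (hZ0 q ω) (hZ1 q ω)) (hw0 ω)
              linarith
        _ = 1 + 2 * ∑ ω, w ω * Z q ω := by rw [Finset.sum_add_distrib, hw1, Finset.mul_sum]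
        _ ≤ 2 * u q + 1 := by linarith [hu q]
        _ ≤ _ := Real.add_one_le_exp _
    calc _ ≤ Real.exp (2 * u q) ^ m * Real.exp (-(2 * m * u q + t)) := by
          refine mul_le_mul_of_nonneg_right (pow_le_pow_left₀ ?_ h2 m) (Real.exp_pos _).le
          exact Finset.sum_nonneg fun ω _ => mul_nonneg (hw0 ω) (Real.exp_pos _).le
      _ = Real.exp (-t) := by rw [← Real.exp_nat_mul, ← Real.exp_add]; ring_nf
  have h1' : ∀ q, ∑ ω, W ω * Real.exp ((m * l q / 2 - t) - ∑ i, Z q (ω i)) ≤ Real.exp (-t) := by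
    intro q
    have h3 : ∀ ω : Fin m → Ω, (m * l q / 2 - t) - ∑ i, Z q (ω i) =
        ∑ i, -Z q (ω i) + (m * l q / 2 - t) := fun ω => by
      rw [Finset.sum_neg_distrib]; ring
    simp only [h3]
    rw [key (fun ω => -Z q ω)]
    have h2 : ∑ ω, w ω * Real.exp (-Z q ω) ≤ Real.exp (-(l q / 2)) := by
      calc ∑ ω, w ω * Real.exp (-Z q ω) ≤ ∑ ω, (w ω - (w ω * Z q ω) / 2) :=
            Finset.sum_le_sum fun ω _ => by
              have := mul_le_mul_of_nonneg_left (exp_neg_le_one_sub_half (hZ0 q ω) (hZ1 q ω)) (hw0 ω)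
              linarith
        _ = 1 - (∑ ω, w ω * Z q ω) / 2 := by rw [Finset.sum_sub_distrib, hw1, Finset.sum_div]
        _ ≤ -(l q / 2) + 1 := by linarith [hl q]
        _ ≤ _ := Real.add_one_le_exp _
    calc _ ≤ Real.exp (-(l q / 2)) ^ m * Real.exp (m * l q / 2 - t) := by
          refine mul_le_mul_of_nonneg_right (pow_le_pow_left₀ ?_ h2 m) (Real.exp_pos _).le
          exact Finset.sum_nonneg fun ω _ => mul_nonneg (hw0 ω) (Real.exp_pos _).le
      _ = Real.exp (-t) := by rw [← Real.exp_nat_mul, ← Real.exp_add]; ring_nf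
  have hsum : ∑ ω, W ω * F ω < 1 := by
    refine lt_of_le_of_lt ?_ ht
    simp only [hF, Finset.mul_sum]
    rw [Finset.sum_comm]
    calc _ ≤ ∑ _q : P, 2 * Real.exp (-t) := Finset.sum_le_sum fun q _ => by
          simp only [mul_add, Finset.sum_add_distrib]
          linarith [h1 q, h1' q]
      _ = _ := by simp; ring
  obtain ⟨ω, hω⟩ : ∃ ω, F ω < 1 := by
    by_contra hcon
    push Not at hcon
    have : (1:ℝ) ≤ ∑ ω, W ω * F ω := by
      rw [← hW1]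
      exact Finset.sum_le_sum fun ω _ => le_mul_of_one_le_right (hW0 ω) (hcon ω)
    linarith
  refine ⟨ω, fun q => ?_⟩
  have h4 : Real.exp (∑ i, Z q (ω i) - (2 * m * u q + t)) +
      Real.exp ((m * l q / 2 - t) - ∑ i, Z q (ω i)) < 1 := by
    refine lt_of_le_of_lt ?_ hω
    exact Finset.single_le_sum (f := fun q => Real.exp (∑ i, Z q (ω i) - (2 * m * u q + t)) +
      Real.exp ((m * l q / 2 - t) - ∑ i, Z q (ω i))) (fun q _ => by positivity) (Finset.mem_univ q)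
  have h5 := Real.exp_pos (∑ i, Z q (ω i) - (2 * m * u q + t))
  have h6 := Real.exp_pos ((m * l q / 2 - t) - ∑ i, Z q (ω i))
  have h7 : ∑ i, Z q (ω i) - (2 * m * u q + t) < 0 := by
    rw [← Real.exp_lt_exp, Real.exp_zero]; linarith
  have h8 : (m * l q / 2 - t) - ∑ i, Z q (ω i) < 0 := by
    rw [← Real.exp_lt_exp, Real.exp_zero]; linarith
  exact ⟨by linarith, by linarith⟩

lemma card_pairs_exp {n k : ℕ} (h : n < 2 ^ k) :
    2 * ((n * n : ℕ) : ℝ) * Real.exp (-(3 * (k:ℝ))) < 1 := by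
  have h1 : (n:ℝ) + 1 ≤ (2:ℝ) ^ k := by exact_mod_cast h
  have hk : ((8:ℝ) ^ k) ≤ Real.exp (3 * (k:ℝ)) := by
    rw [show (3:ℝ) * k = (k:ℕ) * 3 by ring, Real.exp_nat_mul]
    refine pow_le_pow_left₀ (by norm_num) ?_ k
    have : Real.exp 3 = Real.exp 1 ^ 3 := by rw [← Real.exp_nat_mul]; norm_num
    rw [this]
    calc (8:ℝ) = 2 ^ 3 := by norm_num
      _ ≤ _ := pow_le_pow_left₀ (by norm_num) (by linarith [Real.add_one_le_exp (1:ℝ)]) 3
  rw [Real.exp_neg, ← div_eq_mul_inv, div_lt_one (Real.exp_pos _)]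
  refine lt_of_lt_of_le ?_ hk
  have h2 : (8:ℝ) ^ k = 2 ^ k * 2 ^ k * 2 ^ k := by rw [← mul_pow, ← mul_pow]; norm_num
  rcases Nat.eq_zero_or_pos n with rfl | hn
  · simp
  · have hn1 : (1:ℝ) ≤ n := by exact_mod_cast hn
    push_cast
    rw [h2]
    nlinarith [mul_le_mul h1 h1 (by linarith) (by positivity)]

end Vale.Agent.P249.Dim
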