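import Vale.Agent.P249.Dim.Band
import Mathlib.Algebra.Order.Archimedean.Basic
import Mathlib.Data.Finset.Max
import Mathlib.Analysis.SpecialFunctions.Pow.Real
import Mathlib.Analysis.Complex.ExponentialBounds

/-!
All bands together, with random signs.
-/

namespace Vale.Agent.P249.Dim

open Finset

lemma sum_telescope_le (h : ℤ → ℝ) (hm : Monotone h) (h0 : ∀ e, 0 ≤ h e) (E : Finset ℤ) :
    ∀ b : ℤ, (∀ e ∈ E, e ≤ b) → ∑ e ∈ E, (h e - h (e - 1)) ≤ h b := by
  induction E using Finset.induction_on_max with
  | empty => intro b _; simpa using h0 b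
  | insert a s hlt ih =>
    intro b hb
    rw [Finset.sum_insert (fun ha => lt_irrefl a (hlt a ha))]
    have h1 := ih (a - 1) fun e he => by have := hlt e he; omega
    have h2 := hm (hb a (Finset.mem_insert_self a s))
    linarith

lemma sum_zpow_le {A : ℝ} (hA : 2 ≤ A) (E : Finset ℤ) :
    ∀ b : ℤ, (∀ e ∈ E, e < b) → ∑ e ∈ E, A ^ e ≤ A ^ b := by
  induction E using Finset.induction_on_max with
  | empty => intro b _; simpa using (zpow_pos (by linarith : (0:ℝ) < A) b).le
  | insert a s hlt ih =>
    intro b hb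
    rw [Finset.sum_insert (fun ha => lt_irrefl a (hlt a ha))]
    have h1 := ih a hlt
    have h2 : a + 1 ≤ b := by have := hb a (Finset.mem_insert_self a s); omega
    have h3 : A ^ (a + 1) ≤ A ^ b := zpow_le_zpow_right₀ (by linarith) h2
    rw [zpow_add_one₀ (by linarith)] at h3
    have h4 := zpow_pos (by linarith : (0:ℝ) < A) a
    nlinarith

/-- The Lipschitz constant of the whole map. -/
noncomputable def upC (K : ℕ) : ℝ :=
  32 * coarseC K * K + 8 * (37 * coarseC K) + 4 * supC K

lemma zero_le_supC (K : ℕ) : 0 ≤ supC K := by rw [supC]; positivity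

lemma upC_ge (K : ℕ) : 1 ≤ upC K := by
  have h1 := one_le_coarseC K
  have h2 := zero_le_supC K
  have h3 : 0 ≤ 32 * coarseC K * (K:ℝ) := by positivity
  rw [upC]; linarith

theorem exists_map {ι κ : Type*} [Fintype ι] [Fintype κ] {p : ℝ} (hp : 1 ≤ p) (x : ι → κ → ℝ)
    (hx : Function.Injective x) {L K k : ℕ} (hL : 1 ≤ L) (hk1 : 1 ≤ k) (hk : k ≤ K * L)
    (hn : Fintype.card ι < 2 ^ k) :
    ∃ (f : ι → Fin (24 * k) × Fin (hashDim k (loadC p K L (bandC K))) → ℝ) (s : ℝ), 0 < s ∧
      ∀ i j, s * nm p (x i - x j) ≤ nm p (f i - f j) ∧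
        nm p (f i - f j) ≤ 2048 * upC K * s * nm p (x i - x j) := by
  classical
  have hp0 : 0 < p := by linarith
  set A : ℝ := 64 ^ L with hA
  have hA64 : 64 ≤ A := by
    rw [hA]; simpa using pow_le_pow_right₀ (show (1:ℝ) ≤ 64 by norm_num) hL
  have hA0 : 0 < A := by linarith
  set H := bandC K with hH
  have hH1 : 1 ≤ H := one_le_bandC K
  have hC0 := one_le_coarseC K
  set U := upC K with hU
  have hU1 := upC_ge K
  set d : ι × ι → ℝ := fun q => nm p (x q.1 - x q.2) with hd
  have hdpos : ∀ q : ι × ι, q.1 ≠ q.2 → 0 < d q := by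
    intro q hq
    refine lt_of_le_of_ne (nm_nonneg _) fun h => hq (hx ?_)
    have h' := nm_rpow hp0 (x q.1 - x q.2)
    simp only [hd] at h
    rw [← h, Real.zero_rpow hp0.ne'] at h'
    funext c
    have h1 := (Finset.sum_eq_zero_iff_of_nonneg
      (fun c _ => Real.rpow_nonneg (abs_nonneg ((x q.1 - x q.2) c)) p)).1 h'.symm c (Finset.mem_univ c)
    rw [Real.rpow_eq_zero (abs_nonneg _) hp0.ne', abs_eq_zero, Pi.sub_apply, sub_eq_zero] at h1
    exact h1
  -- the band of a pair
  have hband : ∀ q : ι × ι, ∃ j : ℤ, q.1 ≠ q.2 →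
      H * (A ^ j * A) < d q ∧ d q ≤ H * (A ^ j * A ^ 2) := by
    intro q
    by_cases h : q.1 = q.2
    · exact ⟨0, fun h' => absurd h h'⟩
    obtain ⟨j, hj⟩ := exists_mem_Ioc_zpow (x := d q / (H * A)) (y := A)
      (div_pos (hdpos q h) (by positivity)) (by linarith)
    rw [Set.mem_Ioc, lt_div_iff₀ (by positivity), div_le_iff₀ (by positivity),
      zpow_add_one₀ hA0.ne'] at hj
    exact ⟨j, fun _ => ⟨by linarith [hj.1], by linarith [hj.2]⟩⟩
  choose band hband using hband
  set J := Finset.univ.image band with hJ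
  choose F hsup hlow hupp using fun j : ℤ => exists_band hp x hL hk1 hk hn (zpow_pos hA0 j)
  -- the total variation over all bands
  have htot : ∀ a b, ∑ j ∈ J, nm p (F j a - F j b) ≤ U * d (a, b) := by
    intro a b
    set D := d (a, b) with hD
    rcases eq_or_ne a b with rfl | hab
    · have e1 : D = 0 := by rw [hD]; simp only [hd]; rw [sub_self]; exact nm_zero hp0
      rw [e1, mul_zero]
      refine le_of_eq (Finset.sum_eq_zero fun j _ => ?_)
      rw [sub_self]; exact nm_zero hp0
    have hD0 : 0 < D := hdpos (a, b) hab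
    set S1 := J.filter (fun j => A ^ j * A ^ 6 ≤ D) with hS1
    set S2 := J.filter (fun j => ¬ A ^ j * A ^ 6 ≤ D) with hS2
    rw [← Finset.sum_filter_add_sum_filter_not J (fun j => A ^ j * A ^ 6 ≤ D)]
    have h1 : ∑ j ∈ S1, nm p (F j a - F j b) ≤ 4 * supC K * D := by
      rcases S1.eq_empty_or_nonempty with h | h
      · rw [h, Finset.sum_empty]; have := zero_le_supC K; positivity
      set t := S1.max' h with ht
      have hrest : ∑ j ∈ S1.erase t, A ^ j ≤ A ^ t := sum_zpow_le (by linarith) _ t fun e he =>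
        lt_of_le_of_ne (S1.le_max' e (Finset.mem_of_mem_erase he)) (Finset.ne_of_mem_erase he)
      have htD : A ^ t * A ^ 6 ≤ D := (Finset.mem_filter.1 (S1.max'_mem h)).2
      have hall : ∑ j ∈ S1, A ^ j ≤ 2 * A ^ t := by
        rw [← Finset.add_sum_erase S1 _ (S1.max'_mem h)]
        linarith
      calc ∑ j ∈ S1, nm p (F j a - F j b) ≤ ∑ j ∈ S1, 2 * supC K * A ^ 6 * A ^ j := by
            refine Finset.sum_le_sum fun j _ => ?_
            have e := nm_add_le hp (F j a) (-F j b)
            rw [nm_neg, ← sub_eq_add_neg] at e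
            have a1 := hsup j a
            have a2 := hsup j b
            linarith
        _ = 2 * supC K * A ^ 6 * ∑ j ∈ S1, A ^ j := (Finset.mul_sum _ _ _).symm
        _ ≤ 2 * supC K * A ^ 6 * (2 * A ^ t) :=
            mul_le_mul_of_nonneg_left hall (by have := zero_le_supC K; positivity)
        _ ≤ _ := by
            have := mul_le_mul_of_nonneg_left htD
              (by linarith [zero_le_supC K] : 0 ≤ 4 * supC K)
            linarith
    have h2 : ∑ j ∈ S2, nm p (F j a - F j b) ≤
        32 * coarseC K * K * D + 8 * (37 * coarseC K) * D := by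
      refine (Finset.sum_le_sum fun j _ => hupp j a b).trans ?_
      rw [Finset.sum_add_distrib, ← Finset.mul_sum, Finset.sum_ite, Finset.sum_const_zero, add_zero,
        Finset.sum_const, nsmul_eq_mul]
      refine add_le_add ?_ ?_
      · -- the telescoping part
        set h : ℤ → ℝ := fun e => vol p x a (8 * (64:ℝ) ^ e) with hh
        have hmono : Monotone h := fun e e' he => vol_mono hp0 x a (by positivity)
          (mul_le_mul_of_nonneg_left (zpow_le_zpow_right₀ (by norm_num) he) (by norm_num))
        have hcover : ∑ j ∈ S2, ∑ l ∈ Finset.range L,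
            (vol p x a (8 * (A ^ j * 64 ^ (l + 1))) - vol p x a (A ^ j * 64 ^ (l + 1) / 8)) ≤ k := by
          set E := (S2 ×ˢ Finset.range L).image (fun q : ℤ × ℕ => (L:ℤ) * q.1 + q.2 + 1) with hE
          have hinj : ∀ q ∈ S2 ×ˢ Finset.range L, ∀ q' ∈ S2 ×ˢ Finset.range L,
              (L:ℤ) * q.1 + q.2 + 1 = (L:ℤ) * q'.1 + q'.2 + 1 → q = q' := by
            rintro ⟨j, l⟩ hq ⟨j', l'⟩ hq' he
            simp only [Finset.mem_product, Finset.mem_range] at hq hq'
            simp only at he
            have hL' : (0:ℤ) < L := by exact_mod_cast hL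
            have hl : (l:ℤ) < L := by exact_mod_cast hq.2
            have hl' : (l':ℤ) < L := by exact_mod_cast hq'.2
            have e1 : (L:ℤ) * (j - j') = (l':ℤ) - l := by rw [mul_sub]; linarith
            have e2 : j = j' := by
              by_contra hne
              rcases lt_or_gt_of_ne hne with h | h
              · have : (L:ℤ) * (j - j') ≤ (L:ℤ) * (-1) :=
                  mul_le_mul_of_nonneg_left (by omega) hL'.le
                linarith [show (0:ℤ) ≤ l' from Int.natCast_nonneg _]
              · have : (L:ℤ) * 1 ≤ (L:ℤ) * (j - j') :=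
                  mul_le_mul_of_nonneg_left (by omega) hL'.le
                linarith [show (0:ℤ) ≤ l from Int.natCast_nonneg _]
            subst e2
            rw [sub_self, mul_zero] at e1
            simp only [Prod.mk.injEq, true_and]
            omega
          have e : ∀ j : ℤ, ∀ l : ℕ,
              vol p x a (8 * (A ^ j * 64 ^ (l + 1))) - vol p x a (A ^ j * 64 ^ (l + 1) / 8) =
                h ((L:ℤ) * j + l + 1) - h ((L:ℤ) * j + l + 1 - 1) := by
            intro j l
            have e1 : A ^ j * 64 ^ (l + 1) = (64:ℝ) ^ ((L:ℤ) * j + l + 1) := by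
              rw [hA, add_assoc, zpow_add₀ (by norm_num), zpow_mul, zpow_natCast,
                show (l:ℤ) + 1 = ((l + 1 : ℕ) : ℤ) by push_cast; ring, zpow_natCast]
            have e2 : A ^ j * 64 ^ (l + 1) / 8 = 8 * (64:ℝ) ^ ((L:ℤ) * j + l + 1 - 1) := by
              rw [e1, zpow_sub_one₀ (by norm_num)]; ring
            rw [e2, e1]
          simp only [e]
          rw [← Finset.sum_product', ← Finset.sum_image (f := fun e => h e - h (e - 1)) hinj, ← hE]
          rcases E.eq_empty_or_nonempty with h0 | h0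
          · rw [h0, Finset.sum_empty]; positivity
          refine (sum_telescope_le h hmono (fun e => vol_nonneg x a _) E (E.max' h0)
            fun e he => E.le_max' e he).trans ?_
          simp only [hh, vol]
          have hc : (cnt p x a (8 * (64:ℝ) ^ E.max' h0) : ℝ) ≤ (2:ℝ) ^ k := by
            exact_mod_cast ((Finset.card_le_univ _).trans hn.le)
          refine (Real.log_le_log (by exact_mod_cast cnt_pos hp0 x a (by positivity)) hc).trans ?_
          rw [Real.log_pow]
          exact mul_le_of_le_one_right (Nat.cast_nonneg k) (by linarith [Real.log_two_lt_d9])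
        have hL0 : (0:ℝ) < L := by exact_mod_cast hL
        have hkL : (k:ℝ) ≤ (K:ℝ) * L := by exact_mod_cast hk
        calc 32 * coarseC K * nm p (x a - x b) / L * _ ≤
              32 * coarseC K * nm p (x a - x b) / L * ((K:ℝ) * L) :=
              mul_le_mul_of_nonneg_left (hcover.trans hkL)
                (div_nonneg (mul_nonneg (by linarith) (nm_nonneg _)) hL0.le)
          _ = _ := by simp only [hD, hd]; field_simp
      · simp only [← show D = nm p (x a - x b) from rfl]
        have hcard : (((S2.filter fun j => A ^ j < 4 * D).card : ℕ) : ℝ) ≤ 8 := by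
          rcases (S2.filter fun j => A ^ j < 4 * D).eq_empty_or_nonempty with h0 | h0
          · rw [h0]; simp
          set t := (S2.filter fun j => A ^ j < 4 * D).min' h0 with ht
          have hmem := (S2.filter fun j => A ^ j < 4 * D).min'_mem h0
          have hm1 := Finset.mem_filter.1 hmem
          have hm2 : ¬ A ^ t * A ^ 6 ≤ D := (Finset.mem_filter.1 hm1.1).2
          rw [not_le] at hm2
          have hsub : (S2.filter fun j => A ^ j < 4 * D) ⊆ Finset.Icc t (t + 7) := by
            intro j hj
            refine Finset.mem_Icc.2 ⟨Finset.min'_le _ _ hj, ?_⟩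
            have h4 := (Finset.mem_filter.1 hj).2
            have h5 : A ^ j < A ^ (t + 7) := by
              rw [zpow_add₀ hA0.ne', show (7:ℤ) = ((7:ℕ):ℤ) from rfl, zpow_natCast, pow_succ]
              have h6 := hm2
              have h7 : 4 * (A ^ t * A ^ 6) ≤ A * (A ^ t * A ^ 6) :=
                mul_le_mul_of_nonneg_right (by linarith) (by positivity)
              linarith
            exact ((zpow_lt_zpow_iff_right₀ (by linarith)).1 h5).le
          calc (((S2.filter fun j => A ^ j < 4 * D).card : ℕ) : ℝ) ≤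
                ((Finset.Icc t (t + 7)).card : ℕ) := by exact_mod_cast Finset.card_le_card hsub
            _ = 8 := by rw [Int.card_Icc, show t + 7 + 1 - t = 8 by ring]; norm_num [Int.toNat]
        calc _ ≤ (8:ℝ) * (37 * coarseC K * D) :=
              mul_le_mul_of_nonneg_right hcard (by positivity)
          _ = _ := by ring
    have e : U * D = 4 * supC K * D +
        (32 * coarseC K * K * D + 8 * (37 * coarseC K) * D) := by rw [hU, upC]; ring
    rw [e]
    exact add_le_add h1 h2
  -- random signs
  set sg : Bool → ℝ := fun b => if b then 1 else -1 with hsg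
  have hsga : ∀ b, |sg b| = 1 := fun b => by cases b <;> simp [hsg]
  set S : (↥J → Bool) → ι → Fin (hashDim k (loadC p K L H)) → ℝ :=
    fun σ a => ∑ j : ↥J, sg (σ j) • F j a with hS
  have hSle : ∀ σ a b, nm p (S σ a - S σ b) ≤ U * d (a, b) := by
    intro σ a b
    simp only [hS, ← Finset.sum_sub_distrib, ← smul_sub]
    refine (nm_sum_le hp _ _).trans (le_trans (le_of_eq ?_) (htot a b))
    rw [← Finset.sum_coe_sort J]
    exact Finset.sum_congr rfl fun j _ => by rw [nm_smul hp0, hsga, one_mul]
  set jq : ι × ι → ↥J := fun q => ⟨band q, Finset.mem_image_of_mem _ (Finset.mem_univ q)⟩ with hjq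
  set v : ι × ι → ℝ := fun q => nm p (F (jq q) q.1 - F (jq q) q.2) with hv
  set Z : ι × ι → (↥J → Bool) → ℝ := fun q σ =>
    if v q ≤ nm p (S σ q.1 - S σ q.2) then 1 else 0 with hZ
  set w : (↥J → Bool) → ℝ := fun _ => (Fintype.card (↥J → Bool) : ℝ)⁻¹ with hw
  have hcard0 : (0:ℝ) < Fintype.card (↥J → Bool) := by exact_mod_cast Fintype.card_pos
  have hw1 : ∑ σ, w σ = 1 := by simp [hw]
  have hhalf : ∀ q, 1 / 2 ≤ ∑ σ, w σ * Z q σ := by
    intro q
    set flip : (↥J → Bool) → (↥J → Bool) := fun σ => Function.update σ (jq q) (!σ (jq q)) with hflip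
    have hinv : Function.Involutive flip := by
      intro σ
      funext j
      by_cases h : j = jq q
      · subst h; simp [hflip]
      · simp [hflip, h]
    have hone : ∀ σ, 1 ≤ Z q σ + Z q (flip σ) := by
      intro σ
      have e : (S σ q.1 - S σ q.2) - (S (flip σ) q.1 - S (flip σ) q.2) =
          (2 * sg (σ (jq q))) • (F (jq q) q.1 - F (jq q) q.2) := by
        simp only [hS, ← Finset.sum_sub_distrib, ← smul_sub, ← sub_smul]
        rw [Finset.sum_eq_single (jq q)]
        · congr 1
          cases h : σ (jq q) <;> simp [hflip, hsg, h] <;> norm_num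
        · intro j _ hj
          simp [hflip, hj]
        · simp
      have h2 := nm_sub_le hp (S σ q.1 - S σ q.2) 0 (S (flip σ) q.1 - S (flip σ) q.2)
      rw [e, nm_smul hp0, abs_mul, hsga, sub_zero, zero_sub, nm_neg, abs_two, mul_one] at h2
      have h0 : ∀ σ, 0 ≤ Z q σ := fun σ => by simp only [hZ]; split_ifs <;> norm_num
      rcases le_or_gt (v q) (nm p (S σ q.1 - S σ q.2)) with h | h
      · have : Z q σ = 1 := by simp only [hZ]; rw [if_pos h]
        linarith [h0 (flip σ)]
      · have : Z q (flip σ) = 1 := by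
          simp only [hZ]; rw [if_pos]; simp only [hv] at h ⊢; linarith
        linarith [h0 σ]
    have e2 : ∑ σ, Z q (flip σ) = ∑ σ, Z q σ := Equiv.sum_comp hinv.toPerm _
    have h3 : (Fintype.card (↥J → Bool) : ℝ) ≤ ∑ σ, (Z q σ + Z q (flip σ)) := by
      calc (Fintype.card (↥J → Bool) : ℝ) = ∑ _σ : ↥J → Bool, (1:ℝ) := by simp
        _ ≤ _ := Finset.sum_le_sum fun σ _ => hone σ
    rw [Finset.sum_add_distrib, e2] at h3
    simp only [hw, ← Finset.mul_sum]
    rw [inv_mul_eq_div, div_le_div_iff₀ two_pos hcard0]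
    linarith
  have ht : 2 * (Fintype.card (ι × ι) : ℝ) * Real.exp (-(3 * (k:ℝ))) < 1 := by
    rw [Fintype.card_prod]; exact card_pairs_exp hn
  obtain ⟨ω, hω⟩ := exists_good_sample w (fun _ => by positivity) hw1 Z
    (fun q σ => by simp only [hZ]; split_ifs <;> norm_num)
    (fun q σ => by simp only [hZ]; split_ifs <;> norm_num)
    (fun _ => 1) (fun _ => 1 / 2)
    (fun q => by
      rw [← hw1]
      exact Finset.sum_le_sum fun σ _ => mul_le_of_le_one_right (by positivity)
        (by simp only [hZ]; split_ifs <;> norm_num))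
    hhalf (24 * k) (3 * k) ht
  set Q : ℝ := ((24 * k : ℕ) : ℝ) with hQ
  have hk0 : (1:ℝ) ≤ k := by exact_mod_cast hk1
  have hQ0 : 0 < Q := by rw [hQ]; push_cast; linarith
  refine ⟨fun a c => S (ω c.1) a c.2, Q ^ (1 / p) / 2048, by positivity, fun a b => ?_⟩
  have hpw : pw p ((fun c : Fin (24 * k) × Fin (hashDim k (loadC p K L H)) => S (ω c.1) a c.2) -
      fun c => S (ω c.1) b c.2) = ∑ q, pw p (S (ω q) a - S (ω q) b) := by
    rw [pw, Fintype.sum_prod_type]
    rfl
  set D := d (a, b) with hD
  have hD0 : 0 ≤ D := nm_nonneg _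
  have hQp : ∀ t : ℝ, 0 ≤ t → (Q ^ (1 / p) * t) ^ p = Q * t ^ p := fun t ht => by
    rw [Real.mul_rpow (by positivity) ht, ← Real.rpow_mul hQ0.le, one_div,
      inv_mul_cancel₀ hp0.ne', Real.rpow_one]
  constructor
  · rcases eq_or_ne a b with rfl | hab
    · rw [show x a - x a = 0 from sub_self _, show nm p (0 : κ → ℝ) = 0 from nm_zero hp0, mul_zero]
      exact nm_nonneg _
    have hvD : D / 256 ≤ v (a, b) := by
      obtain ⟨a1, a2⟩ := hband (a, b) hab
      exact hlow (band (a, b)) a b a1 a2
    rw [show Q ^ (1 / p) / 2048 * nm p (x a - x b) = Q ^ (1 / p) * (D / 2048) by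
      simp only [hD, hd]; ring]
    refine le_nm hp0 (by positivity) ?_
    rw [hQp _ (by positivity), hpw]
    have h1 := (hω (a, b)).2
    have h2 : ∀ q, Z (a, b) (ω q) * (D / 256) ^ p ≤ pw p (S (ω q) a - S (ω q) b) := by
      intro q
      simp only [hZ]
      split_ifs with h
      · rw [one_mul, ← nm_rpow hp0]
        exact Real.rpow_le_rpow (by positivity) (hvD.trans h) hp0.le
      · rw [zero_mul]; exact pw_nonneg _
    calc Q * (D / 2048) ^ p = Q / (8:ℝ) ^ p * (D / 256) ^ p := by
          rw [show D / 2048 = D / 256 / 8 by ring, Real.div_rpow (by positivity) (by norm_num)]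
          ring
      _ ≤ Q / 8 * (D / 256) ^ p :=
          mul_le_mul_of_nonneg_right (div_le_div_of_nonneg_left hQ0.le (by norm_num)
            (le_rpow_self hp (by norm_num))) (by positivity)
      _ ≤ (∑ q, Z (a, b) (ω q)) * (D / 256) ^ p := by
          refine mul_le_mul_of_nonneg_right ?_ (by positivity)
          have hQk : Q = 24 * (k:ℝ) := by rw [hQ]; push_cast; ring
          rw [hQk] at h1 ⊢
          linarith
      _ ≤ _ := by rw [Finset.sum_mul]; exact Finset.sum_le_sum fun q _ => h2 q
  · rw [show 2048 * upC K * (Q ^ (1 / p) / 2048) * nm p (x a - x b) = Q ^ (1 / p) * (U * D) by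
      simp only [hD, hd, hU]; ring]
    refine nm_le hp0 (by positivity) ?_
    rw [hQp _ (by positivity), hpw]
    calc ∑ q, pw p (S (ω q) a - S (ω q) b) ≤ ∑ _q : Fin (24 * k), (U * D) ^ p :=
          Finset.sum_le_sum fun q _ => by
            rw [← nm_rpow hp0]
            exact Real.rpow_le_rpow (nm_nonneg _) (hSle _ a b) hp0.le
      _ = Q * (U * D) ^ p := by simp [hQ]

end Vale.Agent.P249.Dim
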