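import Vale.Agent.P249.Dim.Basic

/-!
Random buckets: vectors with small load are mapped to few coordinates.
-/

namespace Vale.Agent.P249.Dim

open Finset

/-- The real value of a Boolean. -/
def chi (b : Bool) : ℝ := if b then 1 else 0

lemma chi_nonneg (b : Bool) : 0 ≤ chi b := by cases b <;> simp [chi]

/-- The number of buckets. -/
noncomputable def hashDim (k : ℕ) (a : ℝ) : ℕ := ⌈3 * (k : ℝ) * (4 * a ^ 2)⌉₊

/-- The weight of a configuration of independent choices. -/
def bern {κ : Type*} [Fintype κ] (π : κ → ℝ) (σ : κ → Bool) : ℝ :=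
  ∏ c, if σ c then π c else 1 - π c

lemma bern_marginal {κ : Type*} [Fintype κ] [DecidableEq κ] (π : κ → ℝ) (T : Finset κ) :
    ∑ σ : κ → Bool, bern π σ * ∏ c ∈ T, chi (σ c) = ∏ c ∈ T, π c := by
  have h1 : ∀ σ : κ → Bool, bern π σ * ∏ c ∈ T, chi (σ c) =
      ∏ c, ((if σ c then π c else 1 - π c) * if c ∈ T then chi (σ c) else 1) := by
    intro σ
    rw [Finset.prod_mul_distrib, Finset.prod_ite_mem, Finset.univ_inter, bern]
  simp only [h1]
  rw [← Fintype.prod_sum (fun c (b : Bool) =>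
    (if b then π c else 1 - π c) * if c ∈ T then chi b else 1),
    ← Finset.univ_inter T, ← Finset.prod_ite_mem]
  refine Finset.prod_congr rfl fun c _ => ?_
  rw [Fintype.sum_bool]
  by_cases h : c ∈ T <;> simp [h, chi]

lemma bern_nonneg {κ : Type*} [Fintype κ] {π : κ → ℝ} (h0 : ∀ c, 0 ≤ π c) (h1 : ∀ c, π c ≤ 1)
    (σ : κ → Bool) : 0 ≤ bern π σ :=
  Finset.prod_nonneg fun c _ => by split_ifs <;> linarith [h0 c, h1 c]

lemma bern_sum {κ : Type*} [Fintype κ] [DecidableEq κ] (π : κ → ℝ) : ∑ σ : κ → Bool, bern π σ = 1 := by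
  simpa using bern_marginal π ∅

lemma exists_hash {ι κ : Type*} [Fintype ι] [Fintype κ] {p : ℝ} (hp : 1 ≤ p)
    (φ : ι → κ → ℝ) (b : κ → ℝ) (hb : ∀ c, 0 < b c) (h0 : ∀ x c, 0 ≤ φ x c)
    (h1 : ∀ x c, φ x c ≤ b c) {a : ℝ} (ha : 1 ≤ a)
    (hload : ∀ x, ∑ c ∈ univ.filter (fun c => φ x c ≠ 0), b c ^ p ≤ a)
    {k : ℕ} (hk : 1 ≤ k) (hn : Fintype.card ι < 2 ^ k) :
    ∃ Φ : ι → Fin (hashDim k a) → ℝ,
      (∀ x y, pw p (Φ x - Φ y) ≤ 2 * pw p (φ x - φ y) + 3 ∧
        pw p (φ x - φ y) / 4 - 1 ≤ pw p (Φ x - Φ y)) ∧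
      ∀ x, pw p (Φ x) ≤ 4 * a ^ 2 := by
  classical
  have hp0 : 0 < p := by linarith
  set B : ℝ := 4 * a ^ 2 with hB
  have ha2 : 1 ≤ a ^ 2 := one_le_pow₀ ha
  have hB4 : 4 ≤ B := by rw [hB]; linarith
  have hB0 : 0 < B := by linarith
  set π : κ → ℝ := fun c => min (b c ^ p / B) 1 with hπ
  have hbp : ∀ c, 0 < b c ^ p := fun c => Real.rpow_pos_of_pos (hb c) p
  have hπ0 : ∀ c, 0 ≤ π c := fun c => le_min (div_nonneg (hbp c).le hB0.le) zero_le_one
  have hπ1 : ∀ c, π c ≤ 1 := fun c => min_le_right _ _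
  set v : (κ → Bool) → ι → ℝ := fun σ x => min (∑ c, chi (σ c) * (φ x c / b c)) 1 with hv
  have hu0 : ∀ x c, 0 ≤ φ x c / b c := fun x c => div_nonneg (h0 x c) (hb c).le
  have hu1 : ∀ x c, φ x c / b c ≤ 1 := fun x c => (div_le_one (hb c)).2 (h1 x c)
  have hv0 : ∀ σ x, 0 ≤ v σ x := fun σ x =>
    le_min (Finset.sum_nonneg fun c _ => mul_nonneg (chi_nonneg _) (hu0 x c)) zero_le_one
  have hv1 : ∀ σ x, v σ x ≤ 1 := fun σ x => min_le_right _ _
  have habs : ∀ {s t : ℝ}, 0 ≤ s → s ≤ 1 → 0 ≤ t → t ≤ 1 → |s - t| ≤ 1 := by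
    intro s t a1 a2 a3 a4
    exact abs_le.2 ⟨by linarith, by linarith⟩
  set Z : ι × ι → (κ → Bool) → ℝ := fun q σ => |v σ q.1 - v σ q.2| ^ p with hZ
  have hZ0 : ∀ q σ, 0 ≤ Z q σ := fun q σ => Real.rpow_nonneg (abs_nonneg _) p
  have hZ1 : ∀ q σ, Z q σ ≤ 1 := fun q σ =>
    Real.rpow_le_one (abs_nonneg _) (habs (hv0 σ _) (hv1 σ _) (hv0 σ _) (hv1 σ _)) hp0.le
  set T : ι × ι → κ → ℝ := fun q c => |φ q.1 c / b c - φ q.2 c / b c| ^ p with hT
  have hT0 : ∀ q c, 0 ≤ T q c := fun q c => Real.rpow_nonneg (abs_nonneg _) p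
  set μ : ι × ι → ℝ := fun q => pw p (φ q.1 - φ q.2) with hμ
  have hest : ∀ q, ∑ σ, bern π σ * Z q σ ≤ (μ q + 1) / B ∧
      μ q / (2 * B) ≤ ∑ σ, bern π σ * Z q σ := by
    rintro ⟨x, y⟩
    set P := univ.filter (fun c => φ x c ≠ 0 ∨ φ y c ≠ 0) with hP
    have hPz : ∀ c ∉ P, φ x c = 0 ∧ φ y c = 0 := by
      intro c hc
      simpa [hP, not_or] using hc
    have hPload : ∑ c ∈ P, b c ^ p ≤ 2 * a := by
      have : P = univ.filter (fun c => φ x c ≠ 0) ∪ univ.filter (fun c => φ y c ≠ 0) :=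
        Finset.filter_or _ _ _
      rw [this]
      refine le_trans ?_ (by linarith [hload x, hload y] :
        ∑ c ∈ univ.filter (fun c => φ x c ≠ 0), b c ^ p +
          ∑ c ∈ univ.filter (fun c => φ y c ≠ 0), b c ^ p ≤ 2 * a)
      rw [← Finset.sum_union_inter]
      exact le_add_of_nonneg_right (Finset.sum_nonneg fun c _ => (hbp c).le)
    have hπP : ∀ c ∈ P, π c = b c ^ p / B := by
      intro c hc
      refine min_eq_left ((div_le_one hB0).2 ?_)
      have := Finset.single_le_sum (f := fun c => b c ^ p) (fun c _ => (hbp c).le) hc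
      nlinarith
    clear_value P
    set w := ∑ c ∈ P, π c with hw
    have hw2 : w ≤ 2 * a / B := by
      rw [hw, Finset.sum_congr rfl hπP, ← Finset.sum_div]
      exact div_le_div_of_nonneg_right hPload hB0.le
    have hw0 : 0 ≤ w := Finset.sum_nonneg fun c _ => hπ0 c
    have hμeq : μ (x, y) = B * ∑ c ∈ P, π c * T (x, y) c := by
      rw [Finset.mul_sum]
      simp only [hμ, pw]
      rw [← Finset.sum_subset (Finset.subset_univ P) (fun c _ hc => by
        simp [hPz c hc, Real.zero_rpow hp0.ne'])]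
      refine Finset.sum_congr rfl fun c hc => ?_
      rw [hπP c hc]
      simp only [hT, Pi.sub_apply]
      rw [← sub_div, abs_div, abs_of_pos (hb c), Real.div_rpow (abs_nonneg _) (hb c).le]
      have := (hbp c).ne'
      have := hB0.ne'
      field_simp
    -- the first and second moments
    have hm1 : ∀ f : κ → ℝ, ∑ σ, bern π σ * ∑ c ∈ P, chi (σ c) * f c = ∑ c ∈ P, π c * f c := by
      intro f
      simp only [Finset.mul_sum]
      rw [Finset.sum_comm]
      refine Finset.sum_congr rfl fun c _ => ?_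
      have := bern_marginal π {c}
      simp only [Finset.prod_singleton] at this
      rw [← this, Finset.sum_mul]
      exact Finset.sum_congr rfl fun σ _ => by ring
    have hm2 : ∀ f : κ → ℝ, ∑ σ, bern π σ * ∑ c ∈ P, ∑ d ∈ P.erase c, chi (σ c) * chi (σ d) * f c =
        ∑ c ∈ P, ∑ d ∈ P.erase c, π c * π d * f c := by
      intro f
      simp only [Finset.mul_sum]
      rw [Finset.sum_comm]
      refine Finset.sum_congr rfl fun c _ => ?_
      rw [Finset.sum_comm]
      refine Finset.sum_congr rfl fun d hd => ?_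
      have := bern_marginal π {c, d}
      simp only [Finset.prod_pair (Finset.ne_of_mem_erase hd).symm] at this
      rw [← this, Finset.sum_mul]
      exact Finset.sum_congr rfl fun σ _ => by ring
    have hpair : ∀ f : κ → ℝ, (∀ c, 0 ≤ f c) →
        ∑ c ∈ P, ∑ d ∈ P.erase c, π c * π d * f c ≤ w * ∑ c ∈ P, π c * f c := by
      intro f hf
      rw [Finset.mul_sum]
      refine Finset.sum_le_sum fun c _ => ?_
      rw [← Finset.sum_mul, ← Finset.mul_sum]
      calc π c * (∑ d ∈ P.erase c, π d) * f c ≤ π c * w * f c :=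
            mul_le_mul_of_nonneg_right (mul_le_mul_of_nonneg_left
              (Finset.sum_le_sum_of_subset_of_nonneg (Finset.erase_subset c P)
                fun d _ _ => hπ0 d) (hπ0 c)) (hf c)
        _ = w * (π c * f c) := by ring
    -- pointwise bounds
    have hpt : ∀ σ, Z (x, y) σ ≤ ∑ c ∈ P, chi (σ c) * T (x, y) c +
          ∑ c ∈ P, ∑ d ∈ P.erase c, chi (σ c) * chi (σ d) * 1 ∧
        ∑ c ∈ P, chi (σ c) * T (x, y) c -
          ∑ c ∈ P, ∑ d ∈ P.erase c, chi (σ c) * chi (σ d) * T (x, y) c ≤ Z (x, y) σ := by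
      intro σ
      set S := P.filter (fun c => σ c = true) with hS
      have e1 : ∀ f : κ → ℝ, ∑ c ∈ P, chi (σ c) * f c = ∑ c ∈ S, f c := by
        intro f
        rw [hS, Finset.sum_filter]
        exact Finset.sum_congr rfl fun c _ => by cases σ c <;> simp [chi]
      have e2 : ∀ f : κ → ℝ, ∑ c ∈ P, ∑ d ∈ P.erase c, chi (σ c) * chi (σ d) * f c =
          ∑ c ∈ S, ∑ _d ∈ S.erase c, f c := by
        intro f
        rw [← e1 fun c => ∑ _d ∈ S.erase c, f c]
        refine Finset.sum_congr rfl fun c _ => ?_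
        rw [hS, ← Finset.filter_erase, Finset.sum_filter, Finset.mul_sum]
        exact Finset.sum_congr rfl fun d _ => by cases σ c <;> cases σ d <;> simp [chi]
      have ev : ∀ z, (z = x ∨ z = y) → v σ z = min (∑ c ∈ S, φ z c / b c) 1 := by
        intro z hz
        rw [hv, ← e1]
        dsimp only
        congr 1
        refine (Finset.sum_subset (Finset.subset_univ P) fun c _ hc => ?_).symm
        rcases hz with rfl | rfl <;> simp [hPz c hc]
      rw [e1, e2, e2]
      simp only [hZ]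
      rw [ev x (Or.inl rfl), ev y (Or.inr rfl)]
      rcases Nat.lt_or_ge S.card 2 with hS2 | hS2
      · have hzero : ∀ f : κ → ℝ, ∑ c ∈ S, ∑ _d ∈ S.erase c, f c = 0 := fun f =>
          Finset.sum_eq_zero fun c hc => by
            have : S.erase c = ∅ := Finset.card_eq_zero.1 (by
              rw [Finset.card_erase_of_mem hc]; omega)
            rw [this, Finset.sum_empty]
        rw [hzero, hzero]
        rcases Finset.card_le_one_iff_subsingleton_coe.1 (by omega : S.card ≤ 1) with h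
        rcases S.eq_empty_or_nonempty with he | ⟨c, hc⟩
        · simp [he, Real.zero_rpow hp0.ne']
        · have : S = {c} := Finset.eq_singleton_iff_unique_mem.2
            ⟨hc, fun d hd => congrArg Subtype.val (Subsingleton.elim (⟨d, hd⟩ : S) ⟨c, hc⟩)⟩
          simp only [this, Finset.sum_singleton, min_eq_left (hu1 x c), min_eq_left (hu1 y c), hT,
            add_zero, sub_zero, le_refl, and_self]
      · have hbig : ∀ f : κ → ℝ, (∀ c, 0 ≤ f c) →
            ∑ c ∈ S, f c ≤ ∑ c ∈ S, ∑ _d ∈ S.erase c, f c := by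
          intro f hf
          refine Finset.sum_le_sum fun c hc => ?_
          rw [Finset.sum_const, nsmul_eq_mul]
          refine le_mul_of_one_le_left (hf c) ?_
          rw [Finset.card_erase_of_mem hc]
          exact_mod_cast (by omega : 1 ≤ S.card - 1)
        have hone := hbig (fun _ => 1) (fun _ => zero_le_one)
        have hcard : (1:ℝ) ≤ ∑ c ∈ S, (1:ℝ) := by
          simp only [Finset.sum_const, nsmul_eq_mul, mul_one]
          exact_mod_cast (by omega : 1 ≤ S.card)
        have hz1 := hZ1 (x, y) σ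
        simp only [hZ] at hz1
        rw [ev x (Or.inl rfl), ev y (Or.inr rfl)] at hz1
        have hTs := hbig (T (x, y)) (hT0 _)
        have hTn : 0 ≤ ∑ c ∈ S, T (x, y) c := Finset.sum_nonneg fun c _ => hT0 _ c
        constructor
        · linarith
        · linarith [Real.rpow_nonneg (abs_nonneg
            (min (∑ c ∈ S, φ x c / b c) 1 - min (∑ c ∈ S, φ y c / b c) 1)) p]
    have hT1 : 0 ≤ ∑ c ∈ P, π c * T (x, y) c :=
      Finset.sum_nonneg fun c _ => mul_nonneg (hπ0 c) (hT0 _ c)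
    have hw3 : w * w ≤ 1 / B := by
      have h4 : 2 * a / B = 1 / (2 * a) := by rw [hB]; field_simp; ring
      have h5 := mul_le_mul (hw2.trans_eq h4) (hw2.trans_eq h4) hw0 (by positivity)
      refine h5.trans (le_of_eq ?_)
      rw [hB]; field_simp; ring
    have hw4 : w ≤ 1 / 2 := by
      refine hw2.trans ((div_le_iff₀ hB0).2 ?_)
      rw [hB]; nlinarith
    constructor
    · calc ∑ σ, bern π σ * Z (x, y) σ
          ≤ ∑ σ, bern π σ * (∑ c ∈ P, chi (σ c) * T (x, y) c +
              ∑ c ∈ P, ∑ d ∈ P.erase c, chi (σ c) * chi (σ d) * 1) :=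
            Finset.sum_le_sum fun σ _ =>
              mul_le_mul_of_nonneg_left (hpt σ).1 (bern_nonneg hπ0 hπ1 σ)
        _ = ∑ c ∈ P, π c * T (x, y) c + ∑ c ∈ P, ∑ d ∈ P.erase c, π c * π d * 1 := by
            simp only [mul_add, Finset.sum_add_distrib]
            rw [hm1 (T (x, y)), hm2 (fun _ => 1)]
        _ ≤ _ := by
            have := hpair (fun _ => 1) (fun _ => zero_le_one)
            simp only [mul_one] at this ⊢
            rw [← hw] at this
            rw [hμeq, add_div, mul_div_cancel_left₀ _ hB0.ne']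
            linarith
    · calc μ (x, y) / (2 * B) = (∑ c ∈ P, π c * T (x, y) c) / 2 := by
            rw [hμeq]; field_simp
        _ ≤ ∑ c ∈ P, π c * T (x, y) c - ∑ c ∈ P, ∑ d ∈ P.erase c, π c * π d * T (x, y) c := by
            have := hpair (T (x, y)) (hT0 _)
            nlinarith
        _ = ∑ σ, bern π σ * (∑ c ∈ P, chi (σ c) * T (x, y) c -
              ∑ c ∈ P, ∑ d ∈ P.erase c, chi (σ c) * chi (σ d) * T (x, y) c) := by
            simp only [mul_sub, Finset.sum_sub_distrib]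
            rw [hm1 (T (x, y)), hm2 (T (x, y))]
        _ ≤ _ := Finset.sum_le_sum fun σ _ =>
            mul_le_mul_of_nonneg_left (hpt σ).2 (bern_nonneg hπ0 hπ1 σ)
  set m := ⌈3 * (k:ℝ) * B⌉₊ with hm
  have hkr : (1:ℝ) ≤ k := by exact_mod_cast hk
  have hm3 : 3 * (k:ℝ) * B ≤ m := Nat.le_ceil _
  have hm0 : (0:ℝ) < m := lt_of_lt_of_le (by positivity) hm3
  have ht : 2 * (Fintype.card (ι × ι) : ℝ) * Real.exp (-(3 * (k:ℝ))) < 1 := by
    rw [Fintype.card_prod]; exact card_pairs_exp hn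
  obtain ⟨ω, hω⟩ := exists_good_sample (bern π) (bern_nonneg hπ0 hπ1) (bern_sum π) Z hZ0 hZ1
    (fun q => (μ q + 1) / B) (fun q => μ q / (2 * B)) (fun q => (hest q).1) (fun q => (hest q).2)
    m (3 * k) ht
  suffices h : ∃ Φ : ι → Fin m → ℝ,
      (∀ x y, pw p (Φ x - Φ y) ≤ 2 * pw p (φ x - φ y) + 3 ∧
        pw p (φ x - φ y) / 4 - 1 ≤ pw p (Φ x - Φ y)) ∧
      ∀ x, pw p (Φ x) ≤ 4 * a ^ 2 from h
  refine ⟨fun x i => (B / m) ^ (1 / p) * v (ω i) x, fun x y => ?_, fun x => ?_⟩
  · have hpw : pw p ((fun i => (B / m) ^ (1 / p) * v (ω i) x) -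
        fun i => (B / m) ^ (1 / p) * v (ω i) y) = B / m * ∑ i, Z (x, y) (ω i) := by
      rw [pw, Finset.mul_sum]
      refine Finset.sum_congr rfl fun i _ => ?_
      simp only [Pi.sub_apply, hZ]
      rw [← mul_sub, abs_mul, Real.mul_rpow (abs_nonneg _) (abs_nonneg _),
        abs_of_nonneg (by positivity), ← Real.rpow_mul (by positivity), one_div,
        inv_mul_cancel₀ hp0.ne', Real.rpow_one]
    rw [hpw]
    have hBm : 0 ≤ B / m := by positivity
    have hq : B / m * (3 * (k:ℝ)) ≤ 1 := by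
      rw [div_mul_eq_mul_div, div_le_one hm0]; linarith
    obtain ⟨h2, h3⟩ := hω (x, y)
    have h4 := mul_le_mul_of_nonneg_left h2 hBm
    have h5 := mul_le_mul_of_nonneg_left h3 hBm
    have e3 : B / m * (2 * m * ((μ (x, y) + 1) / B)) = 2 * (μ (x, y) + 1) := by field_simp
    have e4 : B / m * (m * (μ (x, y) / (2 * B)) / 2) = μ (x, y) / 4 := by field_simp; ring
    rw [mul_add, e3] at h4
    rw [mul_sub, e4] at h5
    simp only [hμ] at h4 h5
    exact ⟨by linarith, by linarith⟩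
  · rw [pw]
    calc ∑ i, |(B / m) ^ (1 / p) * v (ω i) x| ^ p ≤ ∑ _i : Fin m, B / m := by
          refine Finset.sum_le_sum fun i _ => ?_
          rw [abs_mul, Real.mul_rpow (abs_nonneg _) (abs_nonneg _),
            abs_of_nonneg (by positivity), ← Real.rpow_mul (by positivity), one_div,
            inv_mul_cancel₀ hp0.ne', Real.rpow_one, abs_of_nonneg (hv0 _ x)]
          exact mul_le_of_le_one_right (by positivity)
            (Real.rpow_le_one (hv0 _ x) (hv1 _ x) hp0.le)
      _ = B := by simp; field_simp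

end Vale.Agent.P249.Dim
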