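import Vale.Agent.P249.Dim.Basic

/-!
Truncation at good scales: short distances are kept, all norms become bounded.
-/

namespace Vale.Agent.P249.Dim

open Finset

variable {ι κ : Type*} [Fintype ι] [Fintype κ] {p : ℝ}

/-- The number of points in a closed ball. -/
noncomputable def cnt (p : ℝ) (x : ι → κ → ℝ) (i : ι) (r : ℝ) : ℕ :=
  (univ.filter fun z => nm p (x i - x z) ≤ r).card

lemma cnt_mono (x : ι → κ → ℝ) (i : ι) {r s : ℝ} (h : r ≤ s) : cnt p x i r ≤ cnt p x i s :=
  Finset.card_le_card fun z hz => by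
    simp only [Finset.mem_filter] at hz ⊢
    exact ⟨hz.1, hz.2.trans h⟩

lemma cnt_pos (hp : 0 < p) (x : ι → κ → ℝ) (i : ι) {r : ℝ} (hr : 0 ≤ r) : 1 ≤ cnt p x i r :=
  Finset.card_pos.2 ⟨i, Finset.mem_filter.2 ⟨Finset.mem_univ _, by
    rw [sub_self]; exact le_of_eq_of_le (nm_zero hp) hr⟩⟩

/-- A bump equal to `1` up to distance `2r` and to `0` beyond distance `3r`. -/
noncomputable def bump (r d : ℝ) : ℝ := max 0 (min 1 (3 - d / r))

lemma bump_bounds (r d : ℝ) : 0 ≤ bump r d ∧ bump r d ≤ 1 :=
  ⟨le_max_left _ _, max_le zero_le_one (min_le_left _ _)⟩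

lemma bump_ne_zero {r d : ℝ} (hr : 0 < r) (h : bump r d ≠ 0) : d < 3 * r := by
  by_contra hd
  push Not at hd
  refine h (max_eq_left (le_trans (min_le_right _ _) ?_))
  have : 3 ≤ d / r := (le_div_iff₀ hr).2 hd
  linarith

lemma bump_eq_one {r d : ℝ} (hr : 0 < r) (h : d ≤ 2 * r) : bump r d = 1 := by
  have : d / r ≤ 2 := (div_le_iff₀ hr).2 h
  rw [bump, min_eq_left (by linarith), max_eq_right zero_le_one]

lemma bump_lip {r : ℝ} (hr : 0 < r) (d d' : ℝ) : |bump r d - bump r d'| ≤ |d - d'| / r := by
  have h : ∀ a b : ℝ, |max 0 (min 1 a) - max 0 (min 1 b)| ≤ |a - b| := by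
    intro a b
    refine (abs_max_sub_max_le_max 0 (min 1 a) 0 (min 1 b)).trans ?_
    rw [sub_self, abs_zero, max_eq_right (abs_nonneg _)]
    refine (abs_min_sub_min_le_max 1 a 1 b).trans ?_
    rw [sub_self, abs_zero, max_eq_right (abs_nonneg _)]
  refine (h _ _).trans (le_of_eq ?_)
  rw [show 3 - d / r - (3 - d' / r) = -((d - d') / r) by ring, abs_neg, abs_div, abs_of_pos hr]

lemma exists_trunc (hp : 1 ≤ p) (x : ι → κ → ℝ) {R : ℝ} (hR : 0 < R) {L K k : ℕ} (hL : 1 ≤ L)
    (hk : k ≤ K * L) (hn : Fintype.card ι < 2 ^ k) :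
    ∃ T : ι → Fin L × ι × κ → ℝ,
      (∀ i j, pw p (T i - T j) ≤ 2 * (2:ℝ) ^ (2 * K) * (4 * nm p (x i - x j)) ^ p) ∧
      (∀ i j, nm p (x i - x j) ≤ 64 * R → nm p (x i - x j) ^ p / 2 ≤ pw p (T i - T j)) ∧
      ∀ i, pw p (T i) ≤ (2:ℝ) ^ (2 * K) * (3 * (R * 64 ^ L)) ^ p := by
  classical
  have hp0 : 0 < p := by linarith
  set M : ℕ := 2 ^ (2 * K) with hM
  set r : ℕ → ℝ := fun l => R * 64 ^ (l + 1) with hr
  have hr0 : ∀ l, 0 < r l := fun l => by rw [hr]; positivity
  set Good : ℕ → Finset ι := fun l =>
    univ.filter (fun z => cnt p x z (8 * r l) ≤ M * cnt p x z (r l / 8)) with hGood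
  -- at least half of the levels are good at each point
  have hgood : ∀ i, L ≤ 2 * ((Finset.range L).filter fun l => i ∈ Good l).card := by
    intro i
    set bad : ℕ → Finset ℕ := fun l => (Finset.range l).filter fun l' => i ∉ Good l' with hbad
    have hind : ∀ l, M ^ (bad l).card ≤ cnt p x i (8 * (R * 64 ^ l)) := by
      intro l
      induction l with
      | zero => simpa [hbad] using cnt_pos hp0 x i (by positivity)
      | succ l ih =>
        have hrl : r l / 8 = 8 * (R * 64 ^ l) := by rw [hr]; ring
        by_cases h : i ∈ Good l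
        · have : bad (l + 1) = bad l := by
            rw [hbad]; dsimp only
            rw [Finset.range_add_one, Finset.filter_insert, if_neg (by simpa using h)]
          rw [this]
          refine ih.trans (cnt_mono x i ?_)
          have : (64:ℝ) ^ l ≤ 64 ^ (l + 1) := pow_le_pow_right₀ (by norm_num) (Nat.le_succ l)
          nlinarith
        · have : (bad (l + 1)).card = (bad l).card + 1 := by
            rw [hbad]; dsimp only
            rw [Finset.range_add_one, Finset.filter_insert, if_pos h,
              Finset.card_insert_of_notMem (by simp)]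
          rw [this, pow_succ']
          have h2 : M * cnt p x i (r l / 8) < cnt p x i (8 * r l) := by
            simpa [hGood] using h
          rw [hrl] at h2
          exact ((Nat.mul_le_mul_left M ih).trans h2.le)
    have h1 : 2 ^ (2 * K * (bad L).card) < 2 ^ k := by
      rw [pow_mul]
      exact lt_of_le_of_lt ((hind L).trans (Finset.card_le_univ _)) hn
    have h2 : 2 * K * (bad L).card < K * L :=
      lt_of_lt_of_le ((Nat.pow_lt_pow_iff_right (by norm_num)).1 h1) hk
    have h3 : K * (2 * (bad L).card) < K * L := by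
      rw [← mul_assoc, mul_comm K 2]; exact h2
    have h3' := Nat.lt_of_mul_lt_mul_left h3
    have h4 := Finset.card_filter_add_card_filter_not (s := Finset.range L) (fun l => i ∈ Good l)
    rw [Finset.card_range] at h4
    simp only [hbad] at h3'
    omega
  -- separated nets of good points
  have hnet : ∀ l, ∃ Z : Finset ι, Z ⊆ Good l ∧
      (∀ z ∈ Z, ∀ w ∈ Z, z ≠ w → r l < nm p (x z - x w)) ∧
      ∀ i ∈ Good l, ∃ z ∈ Z, nm p (x i - x z) ≤ r l := by
    intro l
    set Fam := (Good l).powerset.filter
      (fun Z => ∀ z ∈ Z, ∀ w ∈ Z, z ≠ w → r l < nm p (x z - x w)) with hFam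
    obtain ⟨Z, hZ, hmax⟩ := Fam.exists_max_image Finset.card ⟨∅, by simp [hFam]⟩
    rw [hFam, Finset.mem_filter, Finset.mem_powerset] at hZ
    refine ⟨Z, hZ.1, hZ.2, fun i hi => ?_⟩
    by_contra hcon
    push Not at hcon
    have hiZ : i ∉ Z := fun h => by
      have h' := hcon i h
      rw [sub_self] at h'
      linarith [hr0 l, nm_zero (ι := κ) hp0, show nm p (0 : κ → ℝ) = 0 from nm_zero hp0]
    have hmem : insert i Z ∈ Fam := by
      rw [hFam, Finset.mem_filter, Finset.mem_powerset]
      refine ⟨Finset.insert_subset hi hZ.1, ?_⟩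
      intro z hz w hw hzw
      rcases Finset.mem_insert.1 hz with hz1 | hz1
      · rcases Finset.mem_insert.1 hw with hw1 | hw1
        · exact absurd (hz1.trans hw1.symm) hzw
        · rw [hz1]; exact hcon w hw1
      · rcases Finset.mem_insert.1 hw with hw1 | hw1
        · rw [nm_sub_comm, hw1]; exact hcon z hz1
        · exact hZ.2 z hz1 w hw1 hzw
    have := hmax _ hmem
    rw [Finset.card_insert_of_notMem hiZ] at this
    omega
  choose Zn hZsub hZsep hZcov using hnet
  -- bounded overlap
  have hover : ∀ l i, ((Zn l).filter fun z => nm p (x i - x z) < 3 * r l).card ≤ M := by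
    intro l i
    set A := (Zn l).filter (fun z => nm p (x i - x z) < 3 * r l) with hA
    rcases A.eq_empty_or_nonempty with h | h
    · simp [h]
    obtain ⟨z0, hz0, hmin⟩ := A.exists_min_image (fun z => cnt p x z (8 * r l)) h
    have hN : 0 < cnt p x z0 (8 * r l) := cnt_pos hp0 x z0 (by linarith [hr0 l])
    have hsum : ∑ z ∈ A, cnt p x z (r l / 8) ≤ cnt p x z0 (8 * r l) := by
      simp only [cnt]
      rw [← Finset.card_biUnion]
      · refine Finset.card_le_card fun w hw => ?_
        simp only [Finset.mem_biUnion, Finset.mem_filter] at hw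
        obtain ⟨z, hz, -, hzw⟩ := hw
        refine Finset.mem_filter.2 ⟨Finset.mem_univ _, ?_⟩
        rw [hA, Finset.mem_filter] at hz hz0
        have a1 := nm_sub_le hp (x z0) (x i) (x z)
        have a2 := nm_sub_le hp (x z0) (x z) (x w)
        rw [nm_sub_comm (x z0) (x i)] at a1
        linarith [hr0 l]
      · intro z hz z' hz' hne
        refine Finset.disjoint_left.2 fun w hw hw' => ?_
        simp only [Finset.mem_filter] at hw hw'
        rw [hA, Finset.coe_filter] at hz hz'
        have a1 := hZsep l z hz.1 z' hz'.1 hne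
        have a2 := nm_sub_le hp (x z) (x w) (x z')
        rw [nm_sub_comm (x w) (x z')] at a2
        linarith [hr0 l]
    have h2 : A.card * cnt p x z0 (8 * r l) ≤ M * cnt p x z0 (8 * r l) := by
      calc A.card * cnt p x z0 (8 * r l) = ∑ _z ∈ A, cnt p x z0 (8 * r l) := by simp
        _ ≤ ∑ z ∈ A, M * cnt p x z (r l / 8) := by
            refine Finset.sum_le_sum fun z hz => (hmin z hz).trans ?_
            have := hZsub l (Finset.mem_filter.1 hz).1
            simp only [hGood, Finset.mem_filter] at this
            exact this.2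
        _ = M * ∑ z ∈ A, cnt p x z (r l / 8) := (Finset.mul_sum _ _ _).symm
        _ ≤ _ := Nat.mul_le_mul_left M hsum
    exact Nat.le_of_mul_le_mul_right h2 hN
  -- the map
  set ρ : ℕ → ι → ι → ℝ := fun l z i =>
    if z ∈ Zn l then bump (r l) (nm p (x i - x z)) else 0 with hρ
  have hρb : ∀ l z i, 0 ≤ ρ l z i ∧ ρ l z i ≤ 1 := fun l z i => by
    simp only [hρ]; split_ifs <;> first | exact bump_bounds _ _ | exact ⟨le_rfl, zero_le_one⟩
  have hρne : ∀ l z i, ρ l z i ≠ 0 → z ∈ (Zn l).filter (fun z => nm p (x i - x z) < 3 * r l) := by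
    intro l z i h
    by_cases hz : z ∈ Zn l
    · simp only [hρ, if_pos hz] at h
      exact Finset.mem_filter.2 ⟨hz, bump_ne_zero (hr0 l) h⟩
    · simp only [hρ, if_neg hz] at h
      exact absurd rfl h
  have hρlip : ∀ l z i j, |ρ l z i - ρ l z j| ≤ nm p (x i - x j) / r l := by
    intro l z i j
    simp only [hρ]
    split_ifs
    · refine (bump_lip (hr0 l) _ _).trans (div_le_div_of_nonneg_right ?_ (hr0 l).le)
      have a1 := nm_sub_le hp (x i) (x j) (x z)
      have a2 := nm_sub_le hp (x j) (x i) (x z)
      rw [nm_sub_comm (x j) (x i)] at a2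
      exact abs_le.2 ⟨by linarith, by linarith⟩
    · rw [sub_self, abs_zero]; exact div_nonneg (nm_nonneg _) (hr0 l).le
  set V : ℕ → ι → ι → κ → ℝ := fun l z i => ρ l z i • (x i - x z) with hV
  set sL : ℝ := ((1:ℝ) / L) ^ (1 / p) with hsL
  have hsLp : |sL| ^ p = 1 / L := by
    rw [hsL, abs_of_nonneg (by positivity), ← Real.rpow_mul (by positivity), one_div p,
      inv_mul_cancel₀ hp0.ne', Real.rpow_one]
  have hstep : ∀ l z i j, nm p (V l z i - V l z j) ≤ 4 * nm p (x i - x j) := by
    intro l z i j
    by_cases h : ρ l z j = 0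
    · have e : V l z i - V l z j = (ρ l z i - ρ l z j) • (x i - x z) := by
        simp [hV, h]
      rw [e, nm_smul hp0]
      by_cases h' : ρ l z i = 0
      · rw [h, h', sub_self, abs_zero, zero_mul]; linarith [nm_nonneg (p := p) (x i - x j)]
      · have hd := (Finset.mem_filter.1 (hρne l z i h')).2
        calc _ ≤ nm p (x i - x j) / r l * (3 * r l) :=
              mul_le_mul (hρlip l z i j) hd.le (nm_nonneg _) (div_nonneg (nm_nonneg _) (hr0 l).le)
          _ = 3 * nm p (x i - x j) := by
              rw [mul_left_comm, div_mul_cancel₀ _ (hr0 l).ne']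
          _ ≤ _ := by linarith [nm_nonneg (p := p) (x i - x j)]
    · have e : V l z i - V l z j =
          ρ l z i • (x i - x j) + (ρ l z i - ρ l z j) • (x j - x z) := by
        simp only [hV, sub_smul, smul_sub]; abel
      rw [e]
      refine (nm_add_le hp _ _).trans ?_
      rw [nm_smul hp0, nm_smul hp0, abs_of_nonneg (hρb l z i).1]
      have hd := (Finset.mem_filter.1 (hρne l z j h)).2
      calc _ ≤ 1 * nm p (x i - x j) + nm p (x i - x j) / r l * (3 * r l) :=
            add_le_add (mul_le_mul_of_nonneg_right (hρb l z i).2 (nm_nonneg _))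
              (mul_le_mul (hρlip l z i j) hd.le (nm_nonneg _) (div_nonneg (nm_nonneg _) (hr0 l).le))
        _ = _ := by
            have := (hr0 l).ne'
            field_simp
            ring
  refine ⟨fun i q => sL * V q.1 q.2.1 i q.2.2, ?_, ?_, ?_⟩
  all_goals try intro i
  all_goals try intro j
  · have e : pw p ((fun q : Fin L × ι × κ => sL * V q.1 q.2.1 i q.2.2) -
        fun q => sL * V q.1 q.2.1 j q.2.2) =
        1 / L * ∑ l : Fin L, ∑ z, pw p (V l z i - V l z j) := by
      simp only [pw, Finset.mul_sum]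
      rw [Fintype.sum_prod_type]
      refine Finset.sum_congr rfl fun l _ => ?_
      rw [Fintype.sum_prod_type]
      refine Finset.sum_congr rfl fun z _ => Finset.sum_congr rfl fun c _ => ?_
      simp only [Pi.sub_apply]
      rw [← mul_sub, abs_mul, Real.mul_rpow (abs_nonneg _) (abs_nonneg _), hsLp]
    rw [e]
    have hl : ∀ l : Fin L, ∑ z, pw p (V l z i - V l z j) ≤
        2 * (2:ℝ) ^ (2 * K) * (4 * nm p (x i - x j)) ^ p := by
      intro l
      set S := (Zn l).filter (fun z => nm p (x i - x z) < 3 * r l) ∪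
        (Zn l).filter (fun z => nm p (x j - x z) < 3 * r l) with hS
      have hz : ∀ z ∉ S, pw p (V l z i - V l z j) = 0 := by
        intro z hz
        rw [hS, Finset.notMem_union] at hz
        have a1 : ρ l z i = 0 := by by_contra h; exact hz.1 (hρne l z i h)
        have a2 : ρ l z j = 0 := by by_contra h; exact hz.2 (hρne l z j h)
        simp [hV, a1, a2, pw, Real.zero_rpow hp0.ne']
      rw [← Finset.sum_subset (Finset.subset_univ S) fun z _ h => hz z h]
      calc ∑ z ∈ S, pw p (V l z i - V l z j) ≤ ∑ _z ∈ S, (4 * nm p (x i - x j)) ^ p := by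
            refine Finset.sum_le_sum fun z _ => ?_
            rw [← nm_rpow hp0]
            exact Real.rpow_le_rpow (nm_nonneg _) (hstep l z i j) hp0.le
        _ = (S.card : ℝ) * (4 * nm p (x i - x j)) ^ p := by simp
        _ ≤ _ := by
            refine mul_le_mul_of_nonneg_right ?_ (Real.rpow_nonneg (by linarith [nm_nonneg (p := p) (x i - x j)]) p)
            have : S.card ≤ 2 * M := by
              refine (Finset.card_union_le _ _).trans ?_
              have := hover l i; have := hover l j; omega
            calc (S.card : ℝ) ≤ ((2 * M : ℕ) : ℝ) := by exact_mod_cast this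
              _ = _ := by rw [hM]; push_cast; ring
    calc _ ≤ 1 / (L:ℝ) * ∑ _l : Fin L, 2 * (2:ℝ) ^ (2 * K) * (4 * nm p (x i - x j)) ^ p :=
          mul_le_mul_of_nonneg_left (Finset.sum_le_sum fun l _ => hl l) (by positivity)
      _ = _ := by
          have : (L:ℝ) ≠ 0 := by positivity
          simp; field_simp
  · intro hd
    have e : pw p ((fun q : Fin L × ι × κ => sL * V q.1 q.2.1 i q.2.2) -
        fun q => sL * V q.1 q.2.1 j q.2.2) =
        1 / L * ∑ l : Fin L, ∑ z, pw p (V l z i - V l z j) := by
      simp only [pw, Finset.mul_sum]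
      rw [Fintype.sum_prod_type]
      refine Finset.sum_congr rfl fun l _ => ?_
      rw [Fintype.sum_prod_type]
      refine Finset.sum_congr rfl fun z _ => Finset.sum_congr rfl fun c _ => ?_
      simp only [Pi.sub_apply]
      rw [← mul_sub, abs_mul, Real.mul_rpow (abs_nonneg _) (abs_nonneg _), hsLp]
    rw [e]
    set G := (Finset.univ : Finset (Fin L)).filter (fun l : Fin L => i ∈ Good (l : ℕ)) with hG
    have hGc : (L:ℝ) ≤ 2 * G.card := by
      have h1 := hgood i
      have h2 : ((Finset.range L).filter fun l => i ∈ Good l).card = G.card := by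
        rw [hG, ← Finset.card_map Fin.valEmbedding]
        congr 1
        ext l
        simp only [Finset.mem_filter, Finset.mem_range, Finset.mem_map, Finset.mem_univ, true_and,
          Fin.valEmbedding_apply]
        exact ⟨fun h => ⟨⟨l, h.1⟩, h.2, rfl⟩, fun ⟨a, h1, h2⟩ => h2 ▸ ⟨a.isLt, h1⟩⟩
      rw [h2] at h1
      exact_mod_cast h1
    have hl : ∀ l ∈ G, nm p (x i - x j) ^ p ≤ ∑ z, pw p (V l z i - V l z j) := by
      intro l hl
      rw [hG, Finset.mem_filter] at hl
      obtain ⟨z, hz, hzd⟩ := hZcov l i hl.2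
      have hrl : 64 * R ≤ r l := by
        simp only [hr]
        have : (64:ℝ) ^ 1 ≤ 64 ^ ((l:ℕ) + 1) := pow_le_pow_right₀ (by norm_num) (by omega)
        rw [pow_one] at this
        nlinarith
      have a1 : ρ l z i = 1 := by
        simp only [hρ, if_pos hz]; exact bump_eq_one (hr0 l) (by linarith [hr0 l])
      have a2 : ρ l z j = 1 := by
        simp only [hρ, if_pos hz]
        refine bump_eq_one (hr0 l) ?_
        have := nm_sub_le hp (x j) (x i) (x z)
        rw [nm_sub_comm (x j) (x i)] at this
        linarith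
      refine le_trans (le_of_eq ?_) (Finset.single_le_sum
        (f := fun z => pw p (V l z i - V l z j)) (fun z _ => pw_nonneg _) (Finset.mem_univ z))
      rw [nm_rpow hp0]
      simp [hV, a1, a2]
    have hL0 : (0:ℝ) < L := by exact_mod_cast hL
    calc nm p (x i - x j) ^ p / 2 ≤ 1 / (L:ℝ) * ((G.card:ℝ) * nm p (x i - x j) ^ p) := by
          rw [one_div, ← div_eq_inv_mul, div_le_div_iff₀ two_pos hL0]
          nlinarith [mul_le_mul_of_nonneg_right hGc (Real.rpow_nonneg (nm_nonneg (p := p) (x i - x j)) p)]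
      _ = 1 / (L:ℝ) * ∑ _l ∈ G, nm p (x i - x j) ^ p := by simp
      _ ≤ _ := mul_le_mul_of_nonneg_left ((Finset.sum_le_sum hl).trans
            (Finset.sum_le_sum_of_subset_of_nonneg (Finset.subset_univ G)
              fun l _ _ => Finset.sum_nonneg fun z _ => pw_nonneg _)) (by positivity)
  · have e : pw p (fun q : Fin L × ι × κ => sL * V q.1 q.2.1 i q.2.2) =
        1 / L * ∑ l : Fin L, ∑ z, pw p (V l z i) := by
      simp only [pw, Finset.mul_sum]
      rw [Fintype.sum_prod_type]
      refine Finset.sum_congr rfl fun l _ => ?_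
      rw [Fintype.sum_prod_type]
      refine Finset.sum_congr rfl fun z _ => Finset.sum_congr rfl fun c _ => ?_
      rw [abs_mul, Real.mul_rpow (abs_nonneg _) (abs_nonneg _), hsLp]
    rw [e]
    have hl : ∀ l : Fin L, ∑ z, pw p (V l z i) ≤ (2:ℝ) ^ (2 * K) * (3 * (R * 64 ^ L)) ^ p := by
      intro l
      set S := (Zn l).filter (fun z => nm p (x i - x z) < 3 * r l) with hS
      rw [← Finset.sum_subset (Finset.subset_univ S) fun z _ h => by
        have a1 : ρ l z i = 0 := by by_contra h'; exact h (hρne l z i h')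
        simp [hV, a1, pw, Real.zero_rpow hp0.ne']]
      calc ∑ z ∈ S, pw p (V l z i) ≤ ∑ _z ∈ S, (3 * (R * 64 ^ L)) ^ p := by
            refine Finset.sum_le_sum fun z hz => ?_
            rw [← nm_rpow hp0]
            refine Real.rpow_le_rpow (nm_nonneg _) ?_ hp0.le
            simp only [hV]
            rw [nm_smul hp0, abs_of_nonneg (hρb l z i).1]
            refine (mul_le_of_le_one_left (nm_nonneg _) (hρb l z i).2).trans ?_
            refine (Finset.mem_filter.1 hz).2.le.trans ?_
            simp only [hr]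
            exact mul_le_mul_of_nonneg_left (mul_le_mul_of_nonneg_left
              (pow_le_pow_right₀ (by norm_num) l.isLt) hR.le) (by norm_num)
        _ = (S.card : ℝ) * (3 * (R * 64 ^ L)) ^ p := by simp
        _ ≤ _ := by
            refine mul_le_mul_of_nonneg_right ?_ (by positivity)
            have : ((S.card : ℕ) : ℝ) ≤ ((M : ℕ) : ℝ) := by exact_mod_cast hover l i
            rw [hM] at this
            push_cast at this
            exact this
    calc _ ≤ 1 / (L:ℝ) * ∑ _l : Fin L, (2:ℝ) ^ (2 * K) * (3 * (R * 64 ^ L)) ^ p :=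
          mul_le_mul_of_nonneg_left (Finset.sum_le_sum fun l _ => hl l) (by positivity)
      _ = _ := by
          have : (L:ℝ) ≠ 0 := by positivity
          simp; field_simp

end Vale.Agent.P249.Dim
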